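import Vale.Agent.P216.V609.NDga
import Vale.Agent.P216.V609.Rank
import Mathlib.LinearAlgebra.Dimension.Constructions
import Mathlib.LinearAlgebra.Dimension.RankNullity
import Mathlib.LinearAlgebra.Dimension.LinearMap
import Mathlib.Algebra.Order.Floor.Semiring
import Mathlib.Algebra.Order.Archimedean.Real.Basic

/-!
# P216-V, block V4: adjoining an odd generator at most doubles the rank of the cohomology
(version for dgas which are not graded commutative; `d e` central)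

`rkN φ n`: the rank of `H^n(A) → H^n(A')` for a morphism `φ`.

`rkN_ex_le`: for `A ⟨e⟩ → A' ⟨e⟩ → A'' ⟨e⟩` the rank in degree `n` is at most the rank of
`A' → A''` in degree `n` plus the rank of `A → A'` in degree `n - |e|`.
-/

universe w v u

open Submodule LinearMap

namespace Vale.Agent.P216.V609



section

variable {k : Type*} [Field k] {A A' A'' : Type u} [Ring A] [Algebra k A] [Ring A']
  [Algebra k A'] [Ring A''] [Algebra k A''] {C : NDga k A} {C' : NDga k A'} {C'' : NDga k A''}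

/-- the image of the closed elements of degree `n` modulo exact elements -/
def imgN (φ : NDga.Hom C C') (n : ℕ) : Submodule k (A' ⧸ C'.B n) :=
  (C.Z n).map ((C'.B n).mkQ ∘ₗ φ.f.toLinearMap)

/-- The rank of `H^n(A) → H^n(A')`. -/
noncomputable def rkN (φ : NDga.Hom C C') (n : ℕ) : Cardinal.{u} := Module.rank k (imgN φ n)

/-- shifted ranks -/
noncomputable def rkNS (φ : NDga.Hom C C') (l n : ℕ) : Cardinal.{u} :=
  if l ≤ n then rkN φ (n - l) else 0

/-- **Adjoining an odd generator.** -/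
theorem rkN_ex_le (φ : NDga.Hom C C') (ψ : NDga.Hom C' C'') {l : ℕ} (hl : Odd l) {x : A}
    (hx : x ∈ C.deg (l + 1)) (hdx : C.d x = 0) (hxc : ∀ b, x * b = b * x) {x' : A'}
    (hx' : x' ∈ C'.deg (l + 1)) (hdx' : C'.d x' = 0) (hxc' : ∀ b, x' * b = b * x') {x'' : A''}
    (hx'' : x'' ∈ C''.deg (l + 1)) (hdx'' : C''.d x'' = 0) (hxc'' : ∀ b, x'' * b = b * x'')
    (h : φ.f x = x') (h' : ψ.f x' = x'') (n : ℕ) :
    rkN ((ψ.exMap hl hx' hdx' hxc' hx'' hdx'' hxc'' h').comp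
      (φ.exMap hl hx hdx hxc hx' hdx' hxc' h)) n ≤
      rkN ψ n + rkNS φ l n := by
  let D := C.ex hl hx hdx hxc
  let D'' := C''.ex hl hx'' hdx'' hxc''
  let Φ : NDga.Hom D D'' :=
    (ψ.exMap hl hx' hdx' hxc' hx'' hdx'' hxc'' h').comp (φ.exMap hl hx hdx hxc hx' hdx' hxc' h)
  change rkN Φ n ≤ _
  -- second components
  let sndL : NEx k C →ₗ[k] A :=
    { toFun := fun a => a.2, map_add' := fun _ _ => rfl, map_smul' := fun _ _ => rfl }
  by_cases hln : l ≤ n
  · obtain ⟨j, rfl⟩ := Nat.exists_eq_add_of_le' hln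
    have e1 : rkNS φ l (j + l) = rkN φ j := by
      unfold rkNS
      rw [if_pos hln, Nat.add_sub_cancel]
    rw [e1]
    let π : NEx k C →ₗ[k] A' ⧸ C'.B j := (C'.B j).mkQ ∘ₗ φ.f.toLinearMap ∘ₗ sndL
    refine (rank_map_le_add _ π (D.Z (j + l))).trans (add_le_add ?_ ?_)
    · -- the kernel of `π` goes into the image of `imgN ψ`
      let ι : A'' →ₗ[k] NEx k C'' ⧸ D''.B (j + l) := (D''.B (j + l)).mkQ ∘ₗ (NEx.inl C'').toLinearMap
      have hι : C''.B (j + l) ≤ ker ι := by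
        intro a ha
        rw [LinearMap.mem_ker]
        show (D''.B (j + l)).mkQ (NEx.inl C'' a) = 0
        rw [Submodule.mkQ_apply, Submodule.Quotient.mk_eq_zero]
        exact (NDga.inlHom C'' hl hx'' hdx'' hxc'').map_B ha
      let ι' : A'' ⧸ C''.B (j + l) →ₗ[k] NEx k C'' ⧸ D''.B (j + l) := (C''.B (j + l)).liftQ ι hι
      have hle : (D.Z (j + l) ⊓ ker π).map ((D''.B (j + l)).mkQ ∘ₗ Φ.f.toLinearMap) ≤
          (imgN ψ (j + l)).map ι' := by
        rintro _ ⟨a, ⟨⟨ha1, ha2⟩, ha3⟩, rfl⟩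
        have hda : D.d a = 0 := ha2
        have hd1 : C.d a.1 + C.sg a.2 * x = 0 := congrArg NEx.fst hda
        have hd2 : C.d a.2 = 0 := congrArg NEx.snd hda
        have ha4 : φ.f a.2 ∈ C'.B j := by
          have := LinearMap.mem_ker.1 ha3
          exact (Submodule.Quotient.mk_eq_zero _).1 this
        -- `φ a.2 = d c`
        obtain ⟨c, hc, hc1⟩ : ∃ c ∈ C'.degS l (j + l - 1), C'.d c = φ.f a.2 ∧
            (c = 0 ∨ ∃ i, j = i + 1 ∧ c ∈ C'.deg i) := by
          cases j with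
          | zero =>
            have h0 : φ.f a.2 = 0 := ha4
            exact ⟨0, Submodule.zero_mem _, by rw [map_zero, h0], Or.inl rfl⟩
          | succ i =>
            obtain ⟨c, hc, hc1⟩ := ha4
            exact ⟨c, C'.degS_of (by omega) hc, hc1, Or.inr ⟨i, rfl, hc⟩⟩
        obtain ⟨hc1, hc2⟩ := hc1
        -- `a' = φ a.1 - sg c * x'`
        set a' : A' := φ.f a.1 - C'.sg c * x' with ha'
        have hcx : C'.sg c * x' ∈ C'.deg (j + l) := by
          rcases hc2 with h0 | ⟨i, rfl, hi⟩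
          · rw [h0, map_zero, zero_mul]; exact Submodule.zero_mem _
          · rw [C'.sg_deg hi, smul_mul_assoc]
            refine Submodule.smul_mem _ _ ?_
            have := C'.mul_mem hi hx'
            rwa [show i + (l + 1) = i + 1 + l by ring] at this
        have ha'1 : a' ∈ C'.Z (j + l) := by
          refine ⟨Submodule.sub_mem _ (φ.deg ha1.1) hcx, ?_⟩
          show C'.d a' = 0
          rw [ha', map_sub, C'.leib, hdx', mul_zero, add_zero, ← φ.d, eq_neg_of_add_eq_zero_left hd1,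
            map_neg, map_mul, h, φ.sg]
          have e3 : C'.d (C'.sg c) = -C'.sg (C'.d c) := by rw [C'.sg_d, neg_neg]
          rw [e3, hc1, neg_mul, sub_neg_eq_add, neg_add_cancel]
        refine ⟨(C''.B (j + l)).mkQ (ψ.f a'), ⟨a', ha'1, rfl⟩, ?_⟩
        show (D''.B (j + l)).mkQ (NEx.inl C'' (ψ.f a')) = (D''.B (j + l)).mkQ (Φ.f a)
        rw [← sub_eq_zero, ← map_sub, Submodule.mkQ_apply, Submodule.Quotient.mk_eq_zero]
        -- the difference is `- D (0, ψ c)`
        have e4 : NEx.inl C'' (ψ.f a') - Φ.f a = D''.d (⟨0, -ψ.f c⟩ : NEx k C'') := by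
          ext
          · show ψ.f a' - ψ.f (φ.f a.1) = C''.d 0 + C''.sg (-ψ.f c) * x''
            rw [ha', map_sub, map_mul, h', ψ.sg, map_zero, map_neg, neg_mul]
            abel
          · show 0 - ψ.f (φ.f a.2) = C''.d (-ψ.f c)
            rw [map_neg, ← ψ.d, hc1, zero_sub]
        rw [e4]
        rcases hc2 with h0 | ⟨i, rfl, hi⟩
        · rw [h0, map_zero, neg_zero]
          have : (⟨0, 0⟩ : NEx k C'') = 0 := rfl
          rw [this, map_zero]
          exact Submodule.zero_mem _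
        · rw [show i + 1 + l = (i + l) + 1 by ring]
          exact ⟨⟨0, -ψ.f c⟩, ⟨Submodule.zero_mem _,
            C''.degS_of rfl (Submodule.neg_mem _ (ψ.deg hi))⟩, rfl⟩
      exact (Submodule.rank_mono hle).trans (rank_map_le _ _)
    · -- the image of `π`
      refine Submodule.rank_mono ?_
      rintro _ ⟨a, ⟨ha1, ha2⟩, rfl⟩
      have hd2 : C.d a.2 = 0 := congrArg NEx.snd (show D.d a = 0 from ha2)
      have h5 : a.2 ∈ C.deg j := by
        have := ha1.2
        rwa [C.degS_add] at this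
      exact ⟨a.2, ⟨h5, hd2⟩, rfl⟩
  · have e1 : rkNS φ l n = 0 := by
      unfold rkNS
      rw [if_neg hln]
    rw [e1, add_zero]
    let ι : A'' →ₗ[k] NEx k C'' ⧸ D''.B n := (D''.B n).mkQ ∘ₗ (NEx.inl C'').toLinearMap
    have hι : C''.B n ≤ ker ι := by
      intro a ha
      rw [LinearMap.mem_ker]
      show (D''.B n).mkQ (NEx.inl C'' a) = 0
      rw [Submodule.mkQ_apply, Submodule.Quotient.mk_eq_zero]
      exact (NDga.inlHom C'' hl hx'' hdx'' hxc'').map_B ha
    let ι' : A'' ⧸ C''.B n →ₗ[k] NEx k C'' ⧸ D''.B n := (C''.B n).liftQ ι hι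
    have hle : imgN Φ n ≤ (imgN ψ n).map ι' := by
      rintro _ ⟨a, ⟨ha1, ha2⟩, rfl⟩
      have ha0 : a.2 = 0 := by
        have := ha1.2
        unfold NDga.degS at this
        rw [if_neg hln] at this
        exact this
      have hd1 : C.d a.1 + C.sg a.2 * x = 0 := congrArg NEx.fst (show D.d a = 0 from ha2)
      rw [ha0, map_zero, zero_mul, add_zero] at hd1
      refine ⟨(C''.B n).mkQ (ψ.f (φ.f a.1)), ⟨φ.f a.1, φ.map_Z ⟨ha1.1, hd1⟩, rfl⟩, ?_⟩
      show (D''.B n).mkQ (NEx.inl C'' (ψ.f (φ.f a.1))) = (D''.B n).mkQ (Φ.f a)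
      congr 1
      ext
      · rfl
      · show 0 = ψ.f (φ.f a.2)
        rw [ha0, map_zero, map_zero]
    exact (Submodule.rank_mono hle).trans (rank_map_le _ _)

end

end Vale.Agent.P216.V609

namespace Vale.Agent.P216.V609

variable {k : Type w} [Field k]

theorem imgN_congr {A A' : Type u} [Ring A] [Algebra k A] [Ring A'] [Algebra k A'] {C : NDga k A}
    {C' : NDga k A'} {φ ψ : NDga.Hom C C'} (h : ∀ a, φ.f a = ψ.f a) (n : ℕ) :
    imgN φ n = imgN ψ n := by
  unfold imgN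
  congr 2
  ext a
  exact h a

theorem rkN_congr {A A' : Type u} [Ring A] [Algebra k A] [Ring A'] [Algebra k A'] {C : NDga k A}
    {C' : NDga k A'} {φ ψ : NDga.Hom C C'} (h : ∀ a, φ.f a = ψ.f a) (n : ℕ) :
    rkN φ n = rkN ψ n := by
  unfold rkN
  rw [imgN_congr h]

/-- The rank decreases under composition. -/
theorem rkN_comp_le {A A' A'' : Type u} [Ring A] [Algebra k A] [Ring A'] [Algebra k A'] [Ring A'']
    [Algebra k A''] {C : NDga k A} {C' : NDga k A'} {C'' : NDga k A''} (φ : NDga.Hom C C')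
    (ψ : NDga.Hom C' C'') (n : ℕ) : rkN (ψ.comp φ) n ≤ rkN φ n := by
  let g : A' →ₗ[k] A'' ⧸ C''.B n := (C''.B n).mkQ ∘ₗ ψ.f.toLinearMap
  have hg : C'.B n ≤ ker g := by
    intro a ha
    rw [LinearMap.mem_ker]
    show (C''.B n).mkQ (ψ.f a) = 0
    rw [Submodule.mkQ_apply, Submodule.Quotient.mk_eq_zero]
    exact ψ.map_B ha
  have hle : imgN (ψ.comp φ) n ≤ (imgN φ n).map ((C'.B n).liftQ g hg) := by
    rintro _ ⟨a, ha, rfl⟩
    exact ⟨_, ⟨a, ha, rfl⟩, rfl⟩
  exact (Submodule.rank_mono hle).trans (rank_map_le _ _)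

theorem rkN_comp_le' {A A' A'' : Type u} [Ring A] [Algebra k A] [Ring A'] [Algebra k A'] [Ring A'']
    [Algebra k A''] {C : NDga k A} {C' : NDga k A'} {C'' : NDga k A''} (φ : NDga.Hom C C')
    (ψ : NDga.Hom C' C'') (n : ℕ) : rkN (ψ.comp φ) n ≤ rkN ψ n := by
  refine Submodule.rank_mono ?_
  rintro _ ⟨a, ha, rfl⟩
  exact ⟨φ.f a, φ.map_Z ha, rfl⟩

/-- A graded commutative dga `M` (the base) and a tower of dgas `A t` with central maps
`M → A t`. -/
structure NSys (k : Type w) [Field k] where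
  M : Type v
  [rM : Ring M]
  [aM : Algebra k M]
  CM : Cdga k M
  A : ℝ → Type u
  [rA : ∀ t, Ring (A t)]
  [aA : ∀ t, Algebra k (A t)]
  C : ∀ t, NDga k (A t)
  ev : ∀ t, CHom CM (C t)
  ρ : ∀ s t, t ≤ s → NDga.Hom (C s) (C t)
  ρ_ev : ∀ s t h a, (ρ s t h).f ((ev s).f a) = (ev t).f a
  ρ_ρ : ∀ s t u h h' a, (ρ t u h').f ((ρ s t h).f a) = (ρ s u (h'.trans h)).f a

attribute [instance] NSys.rM NSys.aM NSys.rA NSys.aA

namespace NSys

variable (S : NSys.{w, v, u} k)

/-- The total rank of the cohomology grows at most linearly. -/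
def LinBd : Prop := ∃ (c : ℝ) (hc : 0 ≤ c) (N : ℕ), ∀ t : ℝ, 0 < t → ∀ m : ℕ,
  ∑ n ∈ Finset.range m, rkN (S.ρ (t + c) t (by linarith)) n ≤
    ((N * (⌈t⌉₊ + 1) : ℕ) : Cardinal.{u})

/-- **Adjoining an odd generator** to everything. -/
def ext {l : ℕ} (hl : Odd l) {x : S.M} (hx : x ∈ S.CM.deg (l + 1)) (hdx : S.CM.d x = 0) :
    NSys.{w, v, u} k where
  M := Ex k S.CM
  CM := S.CM.ex hl hx hdx
  A t := NEx k (S.C t)
  C t := (S.C t).ex hl ((S.ev t).deg' hx) ((S.ev t).d_closed hdx) ((S.ev t).central_succ hl hx)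
  ev t := (S.ev t).ex hl hx hdx
  ρ s t h := (S.ev s).exMap (S.ev t) (S.ρ s t h) hl hx hdx hx hdx (S.ρ_ev s t h x)
  ρ_ev s t h a := by
    ext
    · exact S.ρ_ev s t h _
    · exact S.ρ_ev s t h _
  ρ_ρ s t u h h' a := by
    ext
    · exact S.ρ_ρ s t u h h' _
    · exact S.ρ_ρ s t u h h' _

variable {S}

/-- **V4, (7a)**: linear growth passes to the extension. -/
theorem LinBd.ext (h : S.LinBd) {l : ℕ} (hl : Odd l) {x : S.M} (hx : x ∈ S.CM.deg (l + 1))
    (hdx : S.CM.d x = 0) : (S.ext hl hx hdx).LinBd := by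
  obtain ⟨c, hc, N, hN⟩ := h
  refine ⟨c + c, by linarith, N * (⌈c⌉₊ + 2), fun t ht m => ?_⟩
  have key : ∀ n, rkN ((S.ext hl hx hdx).ρ (t + (c + c)) t (by linarith)) n ≤
      rkN (S.ρ (t + c) t (by linarith)) n + rkNS (S.ρ (t + c + c) (t + c) (by linarith)) l n := by
    intro n
    have e0 : t + c + c = t + (c + c) := by ring
    have e1 := rkN_ex_le (S.ρ (t + c + c) (t + c) (by linarith)) (S.ρ (t + c) t (by linarith)) hl
      ((S.ev (t + c + c)).deg' hx) ((S.ev _).d_closed hdx) ((S.ev _).central_succ hl hx)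
      ((S.ev (t + c)).deg' hx) ((S.ev _).d_closed hdx) ((S.ev _).central_succ hl hx)
      ((S.ev t).deg' hx) ((S.ev _).d_closed hdx) ((S.ev _).central_succ hl hx)
      (S.ρ_ev _ _ _ x) (S.ρ_ev _ _ _ x) n
    refine le_trans (le_of_eq ?_) e1
    have e2 : ∀ (s : ℝ) (hs : s = t + (c + c)) (h1 : t ≤ s),
        rkN ((S.ext hl hx hdx).ρ (t + (c + c)) t (by linarith)) n =
          rkN ((S.ext hl hx hdx).ρ s t h1) n := by
      rintro s rfl h1
      rfl
    rw [e2 (t + c + c) e0 (by linarith)]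
    refine rkN_congr (fun a => NEx.ext ?_ ?_) n
    · exact (S.ρ_ρ _ _ _ _ _ _).symm
    · exact (S.ρ_ρ _ _ _ _ _ _).symm
  have hS : ∑ n ∈ Finset.range m, rkNS (S.ρ (t + c + c) (t + c) (by linarith)) l n ≤
      ∑ n ∈ Finset.range m, rkN (S.ρ (t + c + c) (t + c) (by linarith)) n := by
    have e3 : ∀ m : ℕ, ∑ n ∈ Finset.range (l + m),
        rkNS (S.ρ (t + c + c) (t + c) (by linarith)) l n =
        ∑ n ∈ Finset.range m, rkN (S.ρ (t + c + c) (t + c) (by linarith)) n := by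
      intro m
      rw [Finset.sum_range_add]
      have e4 : ∑ n ∈ Finset.range l, rkNS (S.ρ (t + c + c) (t + c) (by linarith)) l n = 0 := by
        refine Finset.sum_eq_zero fun n hn => ?_
        unfold rkNS
        rw [if_neg (by simpa using hn)]
      rw [e4, zero_add]
      refine Finset.sum_congr rfl fun n _ => ?_
      unfold rkNS
      rw [if_pos (Nat.le_add_right l n), Nat.add_sub_cancel_left]
    rw [← e3 m]
    exact Finset.sum_le_sum_of_subset (Finset.range_mono (by omega))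
  calc ∑ n ∈ Finset.range m, rkN ((S.ext hl hx hdx).ρ (t + (c + c)) t (by linarith)) n
      ≤ ∑ n ∈ Finset.range m, (rkN (S.ρ (t + c) t (by linarith)) n +
          rkNS (S.ρ (t + c + c) (t + c) (by linarith)) l n) := Finset.sum_le_sum fun n _ => key n
    _ = ∑ n ∈ Finset.range m, rkN (S.ρ (t + c) t (by linarith)) n +
          ∑ n ∈ Finset.range m, rkNS (S.ρ (t + c + c) (t + c) (by linarith)) l n :=
        Finset.sum_add_distrib
    _ ≤ ((N * (⌈t⌉₊ + 1) : ℕ) : Cardinal) + ((N * (⌈t + c⌉₊ + 1) : ℕ) : Cardinal) :=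
        add_le_add (hN t ht m) (hS.trans (hN (t + c) (by linarith) m))
    _ ≤ ((N * (⌈c⌉₊ + 2) * (⌈t⌉₊ + 1) : ℕ) : Cardinal) := by
        have e5 : ⌈t + c⌉₊ ≤ ⌈t⌉₊ + ⌈c⌉₊ := Nat.ceil_add_le t c
        have e6 : N * (⌈t⌉₊ + 1) + N * (⌈t + c⌉₊ + 1) ≤ N * (⌈c⌉₊ + 2) * (⌈t⌉₊ + 1) := by
          calc N * (⌈t⌉₊ + 1) + N * (⌈t + c⌉₊ + 1)
              ≤ N * (⌈t⌉₊ + 1) + N * (⌈t⌉₊ + ⌈c⌉₊ + 1) :=
                Nat.add_le_add_left (Nat.mul_le_mul_left _ (by omega)) _
            _ = N * (⌈t⌉₊ + 1 + (⌈t⌉₊ + ⌈c⌉₊ + 1)) := by ring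
            _ ≤ N * ((⌈c⌉₊ + 2) * (⌈t⌉₊ + 1)) := by
                refine Nat.mul_le_mul_left _ ?_
                nlinarith [Nat.zero_le (⌈c⌉₊ * ⌈t⌉₊)]
            _ = _ := by ring
        exact_mod_cast e6

end NSys

end Vale.Agent.P216.V609
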