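import Vale.Agent.P216.V609.NDga
import Vale.Agent.P216.V651.Pol

/-!
# P216-V, D3: adjoining an even generator `b` with `d b = y` to a dga, `y` graded central

`NDga.pol`: the dga `D [b]`, `|b| = m` even, `y` closed of degree `m + 1`, graded central. Carrier:
polynomials, `X = b` central (the same normal form as `V651.pol`). `NDga.Hom.polMap`: functoriality,
`NDga.Hom.polLift`: the universal property, `CHom.pol`: the central map `C [b] → D [b]`.
-/

open Polynomial

namespace Vale.Agent.P216.V609

open V651 (cw cw_coeff cw_monomial)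

namespace NDga

variable {k : Type*} [Field k] {A : Type*} [Ring A] [Algebra k A]

/-- the differential of `D [b]` -/
noncomputable def pd (D : NDga k A) (y : A) : A[X] →ₗ[k] A[X] where
  toFun p := cw D.d p + derivative (mapAlgHom D.sg p) * Polynomial.C y
  map_add' p q := by
    rw [map_add, map_add, map_add, add_mul]
    abel
  map_smul' c p := by
    rw [map_smul, map_smul, RingHom.id_apply, smul_add]
    congr 1
    rw [← smul_mul_assoc]
    congr 1
    ext n
    simp only [coeff_derivative, coeff_smul, smul_mul_assoc]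

theorem pd_apply (D : NDga k A) (y : A) (p : A[X]) :
    D.pd y p = cw D.d p + derivative (mapAlgHom D.sg p) * Polynomial.C y := rfl

theorem pd_coeff (D : NDga k A) (y : A) (p : A[X]) (n : ℕ) :
    (D.pd y p).coeff n = D.d (p.coeff n) + D.sg (p.coeff (n + 1)) * ((n : A) + 1) * y := by
  rw [pd_apply, coeff_add, cw_coeff, coeff_mul_C, coeff_derivative, coeff_mapAlgHom_apply]

section pol

variable (C : NDga k A) {m : ℕ} (hm : Even m) (h2 : (2 : k) ≠ 0) {y : A} (hy : y ∈ C.deg (m + 1))
  (hdy : C.d y = 0) (hyc : ∀ b, y * b = C.sg b * y)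

include hyc in
theorem C_mul_pol (p : A[X]) :
    Polynomial.C y * p = mapAlgHom C.sg p * Polynomial.C y := by
  ext n
  rw [coeff_C_mul, coeff_mul_C, coeff_mapAlgHom_apply]
  exact hyc _

include hm hy hyc h2 in
theorem sq_central : y * y = 0 := by
  have h1 := hyc y
  rw [C.sg_of_odd hy hm.add_one, neg_mul] at h1
  have h3 : (2 : k) • (y * y) = 0 := by
    rw [two_smul]
    nth_rewrite 1 [h1]
    exact neg_add_cancel _
  exact (smul_eq_zero.1 h3).resolve_left h2

theorem sg_derivative (p : A[X]) :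
    mapAlgHom C.sg (derivative p) = derivative (mapAlgHom C.sg p) := by
  ext n
  rw [coeff_mapAlgHom_apply, coeff_derivative, coeff_derivative, coeff_mapAlgHom_apply, map_mul,
    map_add, map_natCast, map_one]

theorem cw_derivative (p : A[X]) : cw C.d (derivative p) = derivative (cw C.d p) := by
  ext n
  rw [cw_coeff, coeff_derivative, coeff_derivative, cw_coeff]
  have h1 : ∀ (a : A) (j : ℕ), a * ((j : A) + 1) = (j + 1 : ℕ) • a := fun a j => by
    rw [nsmul_eq_mul, Nat.cast_add, Nat.cast_one]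
    exact ((Nat.cast_commute j a).symm.add_right (Commute.one_right a)).eq
  rw [h1, h1, map_nsmul]

theorem cw_mul (p q : A[X]) :
    cw C.d (p * q) = cw C.d p * q + mapAlgHom C.sg p * cw C.d q := by
  ext n
  simp only [cw_coeff, coeff_add, coeff_mul, map_sum, C.leib, coeff_mapAlgHom_apply,
    Finset.sum_add_distrib]

theorem cw_cw (p : A[X]) : cw C.d (cw C.d p) = 0 := by
  ext n
  simp only [cw_coeff, C.d_d, coeff_zero]

theorem sg_cw (p : A[X]) : mapAlgHom C.sg (cw C.d p) = -cw C.d (mapAlgHom C.sg p) := by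
  ext n
  simp only [cw_coeff, coeff_mapAlgHom_apply, C.sg_d, coeff_neg]

theorem cw_C (a : A) : cw C.d (Polynomial.C a) = Polynomial.C (C.d a) := by
  rw [← monomial_zero_left, cw_monomial, monomial_zero_left]

/-- the degrees of `D [b]` -/
def pdeg (C : NDga k A) (m n : ℕ) : Submodule k A[X] where
  carrier := {p | ∀ i, p.coeff i ∈ C.degS (i * m) n}
  add_mem' := fun ha hb i => by
    rw [coeff_add]
    exact Submodule.add_mem _ (ha i) (hb i)
  zero_mem' := fun i => by
    rw [coeff_zero]
    exact Submodule.zero_mem _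
  smul_mem' := fun c _ h i => by
    rw [coeff_smul]
    exact Submodule.smul_mem _ c (h i)

theorem mem_pdeg {n : ℕ} {p : A[X]} : p ∈ C.pdeg m n ↔ ∀ i, p.coeff i ∈ C.degS (i * m) n :=
  Iff.rfl

theorem degS_zero (n : ℕ) : C.degS 0 n = C.deg n := by
  have := C.degS_add 0 n
  rwa [add_zero] at this

theorem monomial_mem {n : ℕ} {i : ℕ} {a : A} (h : a ∈ C.degS (i * m) n) :
    monomial i a ∈ C.pdeg m n := by
  intro j
  rw [coeff_monomial]
  split_ifs with h1
  · rw [← h1]
    exact h
  · exact Submodule.zero_mem _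

theorem C_mem_pol {n : ℕ} {a : A} (h : a ∈ C.deg n) : Polynomial.C a ∈ C.pdeg m n := by
  rw [← monomial_zero_left]
  refine C.monomial_mem ?_
  rwa [Nat.zero_mul, degS_zero]

/-- **The dga `D [b]`**, `|b| = m` even, `d b = y`, `y` graded central. -/
noncomputable def pol : NDga k A[X] where
  deg n := C.pdeg m n
  sg := mapAlgHom C.sg
  d := C.pd y
  one_mem := by
    rw [← Polynomial.C_1]
    exact C.C_mem_pol C.one_mem
  mul_mem := by
    intro p q a b ha hb i
    rw [coeff_mul]
    refine Submodule.sum_mem _ fun x hx => ?_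
    have hx' : x.1 + x.2 = i := Finset.mem_antidiagonal.1 hx
    rcases C.mem_degS (ha x.1) with h | ⟨j, h, h1⟩
    · rw [h, zero_mul]
      exact Submodule.zero_mem _
    rcases C.mem_degS (hb x.2) with h' | ⟨j', h', h1'⟩
    · rw [h', mul_zero]
      exact Submodule.zero_mem _
    refine C.degS_of ?_ (C.mul_mem h1 h1')
    rw [h, h', ← hx']
    ring
  sg_deg := by
    intro p a ha
    ext n
    rw [coeff_mapAlgHom_apply, coeff_smul]
    rcases C.mem_degS (ha n) with h | ⟨j, h, h1⟩
    · rw [h, map_zero, smul_zero]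
    · rw [C.sg_deg h1, h, pow_add, (hm.mul_left n).neg_one_pow, mul_one]
  sg_sg a := by
    ext n
    rw [coeff_mapAlgHom_apply, coeff_mapAlgHom_apply, C.sg_sg]
  sg_d a := by
    rw [pd_apply, pd_apply, map_add, sg_cw, map_mul, sg_derivative, neg_add]
    congr 1
    rw [show mapAlgHom C.sg (Polynomial.C y) = -Polynomial.C y by
      rw [coe_mapAlgHom, map_C, RingHom.coe_coe, C.sg_of_odd hy hm.add_one, map_neg], mul_neg]
  d_mem := by
    intro p a ha i
    rw [pd_coeff]
    refine Submodule.add_mem _ ?_ ?_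
    · rcases C.mem_degS (ha i) with h | ⟨j, h, h1⟩
      · rw [h, map_zero]
        exact Submodule.zero_mem _
      · exact C.degS_of (by rw [h]; ring) (C.d_mem h1)
    · rcases C.mem_degS (ha (i + 1)) with h | ⟨j, h, h1⟩
      · rw [h, map_zero, zero_mul, zero_mul]
        exact Submodule.zero_mem _
      · have h3 : C.sg (a.coeff (i + 1)) * ((i : A) + 1) * y =
            (i + 1 : ℕ) • (C.sg (a.coeff (i + 1)) * y) := by
          rw [nsmul_eq_mul, Nat.cast_add, Nat.cast_one, ← mul_assoc]
          congr 1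
          exact ((Nat.cast_commute i _).symm.add_right (Commute.one_right _)).eq
        rw [h3, C.sg_deg h1, smul_mul_assoc]
        refine nsmul_mem (Submodule.smul_mem _ _ ?_) _
        refine C.degS_of ?_ (C.mul_mem h1 hy)
        rw [h]
        ring
  d_d a := by
    have h3 : C.sg y = -y := C.sg_of_odd hy hm.add_one
    have e1 : C.pd y (C.pd y a) = cw C.d (cw C.d a) +
        (cw C.d (derivative (mapAlgHom C.sg a) * Polynomial.C y) +
          derivative (mapAlgHom C.sg (cw C.d a)) * Polynomial.C y) +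
        derivative (mapAlgHom C.sg (derivative (mapAlgHom C.sg a) * Polynomial.C y)) *
          Polynomial.C y := by
      rw [C.pd_apply y (C.pd y a), pd_apply, map_add (cw C.d), map_add (mapAlgHom C.sg),
        map_add derivative, add_mul]
      abel
    have e2 : cw C.d (derivative (mapAlgHom C.sg a) * Polynomial.C y) =
        derivative (cw C.d (mapAlgHom C.sg a)) * Polynomial.C y := by
      rw [cw_mul, cw_C, hdy, map_zero, mul_zero, add_zero, cw_derivative]
    have e3 : mapAlgHom C.sg (Polynomial.C y) = -Polynomial.C y := by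
      rw [coe_mapAlgHom, map_C, RingHom.coe_coe, h3, map_neg]
    have e4 : derivative (mapAlgHom C.sg (derivative (mapAlgHom C.sg a) * Polynomial.C y)) *
        Polynomial.C y = 0 := by
      rw [map_mul, e3, mul_neg, map_neg, derivative_mul, derivative_C, mul_zero, add_zero,
        neg_mul, mul_assoc, ← Polynomial.C_mul, C.sq_central hm h2 hy hyc, map_zero, mul_zero,
        neg_zero]
    rw [e1, e2, e4, cw_cw, sg_cw, map_neg, neg_mul, add_neg_cancel, zero_add, add_zero]
  leib a b := by
    rw [pd_apply, pd_apply, pd_apply, cw_mul, map_mul, derivative_mul, add_mul, add_mul, mul_add,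
      mul_assoc (derivative (mapAlgHom C.sg a)) (Polynomial.C y) b, C.C_mul_pol hyc b,
      mul_assoc (derivative (mapAlgHom C.sg a)), mul_assoc (mapAlgHom C.sg a)]
    abel

theorem mem_pol_deg {n : ℕ} {p : A[X]} :
    p ∈ (C.pol hm h2 hy hdy hyc).deg n ↔ ∀ i, p.coeff i ∈ C.degS (i * m) n := Iff.rfl

theorem pol_d (p : A[X]) : (C.pol hm h2 hy hdy hyc).d p = C.pd y p := rfl

theorem pol_sg (p : A[X]) : (C.pol hm h2 hy hdy hyc).sg p = mapAlgHom C.sg p := rfl

theorem pol_d_coeff (p : A[X]) (n : ℕ) : ((C.pol hm h2 hy hdy hyc).d p).coeff n =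
    C.d (p.coeff n) + C.sg (p.coeff (n + 1)) * ((n : A) + 1) * y := C.pd_coeff y p n

theorem pol_sg_coeff (p : A[X]) (n : ℕ) : ((C.pol hm h2 hy hdy hyc).sg p).coeff n =
    C.sg (p.coeff n) := coeff_mapAlgHom_apply _ _ _

theorem pd_C (a : A) : C.pd y (Polynomial.C a) = Polynomial.C (C.d a) := by
  rw [pd_apply, cw_C, coe_mapAlgHom, map_C, derivative_C, zero_mul, add_zero]

theorem pd_monomial (i : ℕ) (a : A) : C.pd y (monomial i a) =
    monomial i (C.d a) + monomial (i - 1) (C.sg a * (i : A) * y) := by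
  rw [pd_apply, cw_monomial, mapAlgHom_monomial, derivative_monomial, monomial_mul_C]

theorem pd_X : C.pd y X = Polynomial.C y := by
  rw [← monomial_one_one_eq_X, pd_monomial, C.d_one, map_zero, zero_add, map_one C.sg, one_mul,
    Nat.cast_one, one_mul, Nat.sub_self, monomial_zero_left]

/-- the inclusion `D → D [b]` -/
noncomputable def polInl : NDga.Hom C (C.pol hm h2 hy hdy hyc) where
  f := CAlgHom
  deg h := C.C_mem_pol h
  sg a := by
    change Polynomial.C (C.sg a) = mapAlgHom C.sg (Polynomial.C a)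
    rw [coe_mapAlgHom, map_C]
    rfl
  d a := (C.pd_C a).symm

@[simp] theorem polInl_apply (a : A) :
    (C.polInl hm h2 hy hdy hyc).f a = Polynomial.C a := rfl

theorem X_mem_pol : (X : A[X]) ∈ (C.pol hm h2 hy hdy hyc).deg m := by
  rw [← monomial_one_one_eq_X]
  refine C.monomial_mem ?_
  exact C.degS_of (by ring) C.one_mem

theorem d_X_pol : (C.pol hm h2 hy hdy hyc).d X = Polynomial.C y := C.pd_X

end pol

end NDga

namespace NDga.Hom

variable {k : Type*} [Field k] {A A' : Type*} [Ring A] [Algebra k A] [Ring A'] [Algebra k A']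
  {S : NDga k A} {C : NDga k A'} (φ : NDga.Hom S C) {m : ℕ} (hm : Even m)
  (h2 : (2 : k) ≠ 0) {y : A} (hy : y ∈ S.deg (m + 1)) (hdy : S.d y = 0)
  (hyc : ∀ b, y * b = S.sg b * y)

theorem degS_map {l n : ℕ} {a : A} (ha : a ∈ S.degS l n) : φ.f a ∈ C.degS l n := by
  rcases S.mem_degS ha with h | ⟨j, h, h1⟩
  · rw [h, map_zero]
    exact Submodule.zero_mem _
  · exact C.degS_of h (φ.deg h1)

section map

variable {y' : A'} (hy' : y' ∈ C.deg (m + 1)) (hdy' : C.d y' = 0)
  (hyc' : ∀ b, y' * b = C.sg b * y') (h : φ.f y = y')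

include h in
theorem map_pd (p : A[X]) : mapAlgHom φ.f (S.pd y p) = C.pd y' (mapAlgHom φ.f p) := by
  ext n
  rw [coeff_mapAlgHom_apply, pd_coeff, pd_coeff, coeff_mapAlgHom_apply, coeff_mapAlgHom_apply,
    map_add, map_mul, map_mul, map_add, map_natCast, map_one, φ.d, φ.sg, h]

/-- **functoriality** of `D [b]` -/
noncomputable def polMap :
    NDga.Hom (S.pol hm h2 hy hdy hyc) (C.pol hm h2 hy' hdy' hyc') where
  f := mapAlgHom φ.f
  deg := by
    intro p a ha i
    rw [coeff_mapAlgHom_apply]
    exact degS_map φ (ha i)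
  sg a := by
    ext n
    change (mapAlgHom φ.f (mapAlgHom S.sg a)).coeff n = (mapAlgHom C.sg (mapAlgHom φ.f a)).coeff n
    simp only [coeff_mapAlgHom_apply, φ.sg]
  d a := map_pd φ h a

theorem polMap_apply (p : A[X]) :
    (polMap φ hm h2 hy hdy hyc hy' hdy' hyc' h).f p = mapAlgHom φ.f p := rfl

@[simp] theorem polMap_coeff (p : A[X]) (n : ℕ) :
    ((polMap φ hm h2 hy hdy hyc hy' hdy' hyc' h).f p).coeff n = φ.f (p.coeff n) :=
  coeff_mapAlgHom_apply _ _ _

@[simp] theorem polMap_C (a : A) :
    (polMap φ hm h2 hy hdy hyc hy' hdy' hyc' h).f (Polynomial.C a) = Polynomial.C (φ.f a) := by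
  rw [polMap_apply, coe_mapAlgHom, map_C]
  rfl

@[simp] theorem polMap_X : (polMap φ hm h2 hy hdy hyc hy' hdy' hyc' h).f X = X := by
  rw [polMap_apply, coe_mapAlgHom, map_X]

end map

section lift

variable {c : A'} (hc : c ∈ C.deg m) (hdc : C.d c = φ.f y) (hcc : ∀ b, c * b = b * c)

include hm hc hcc in
theorem d_pow_central (n : ℕ) : C.d (c ^ n) = (n : A') * (C.d c * c ^ (n - 1)) := by
  induction n with
  | zero => rw [pow_zero, C.d_one, Nat.cast_zero, zero_mul]
  | succ n ih =>
    rw [pow_succ', C.leib_even hc hm, ih, Nat.add_sub_cancel]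
    have h1 : c * ((n : A') * (C.d c * c ^ (n - 1))) = (n : A') * (C.d c * c ^ n) := by
      rcases n with _ | n
      · simp
      · rw [Nat.add_sub_cancel, hcc, mul_assoc, mul_assoc, ← pow_succ]
    rw [h1, Nat.cast_succ, add_mul, one_mul, add_comm]

/-- **Universal property** of `D [b]`: a morphism `φ` and a central even element `c`,
`d c = φ y`. -/
noncomputable def polLift : NDga.Hom (S.pol hm h2 hy hdy hyc) C where
  f := eval₂AlgHom φ.f c fun a => (hcc (φ.f a)).symm
  deg := by
    intro n p hp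
    change p.eval₂ (φ.f : A →+* A') c ∈ C.deg n
    rw [eval₂_eq_sum]
    refine Submodule.sum_mem _ fun i _ => ?_
    rcases S.mem_degS (hp i) with h | ⟨j, h, h1⟩
    · rw [h]
      simp only [map_zero, zero_mul]
      exact Submodule.zero_mem _
    · rw [h]
      exact C.mul_mem (φ.deg h1) (C.pow_mem hc i)
  sg p := by
    change (mapAlgHom S.sg p).eval₂ (φ.f : A →+* A') c = C.sg (p.eval₂ (φ.f : A →+* A') c)
    induction p using Polynomial.induction_on' with
    | add p q hp hq => rw [map_add, eval₂_add, hp, hq, eval₂_add, map_add]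
    | monomial i a =>
      rw [mapAlgHom_monomial, eval₂_monomial, eval₂_monomial, map_mul, map_pow,
        C.sg_of_even hc hm]
      exact congrArg (· * c ^ i) (φ.sg a)
  d p := by
    change (S.pd y p).eval₂ (φ.f : A →+* A') c = C.d (p.eval₂ (φ.f : A →+* A') c)
    induction p using Polynomial.induction_on' with
    | add p q hp hq => rw [map_add, eval₂_add, hp, hq, eval₂_add, map_add]
    | monomial i a =>
      rw [NDga.pd_monomial, eval₂_add, eval₂_monomial, eval₂_monomial, eval₂_monomial, C.leib,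
        d_pow_central hm hc hcc]
      congr 1
      · exact congrArg (· * c ^ i) (φ.d a)
      · simp only [RingHom.coe_coe, map_mul, map_natCast, φ.sg, hdc, mul_assoc]

theorem polLift_apply (p : A[X]) :
    (polLift φ hm h2 hy hdy hyc hc hdc hcc).f p = p.eval₂ (φ.f : A →+* A') c := rfl

@[simp] theorem polLift_C (a : A) :
    (polLift φ hm h2 hy hdy hyc hc hdc hcc).f (Polynomial.C a) = φ.f a := by
  rw [polLift_apply, eval₂_C]
  rfl

@[simp] theorem polLift_X : (polLift φ hm h2 hy hdy hyc hc hdc hcc).f X = c := by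
  rw [polLift_apply, eval₂_X]

end lift

/-- **`b ↦ 0`** -/
noncomputable def polZero (h : φ.f y = 0) : NDga.Hom (S.pol hm h2 hy hdy hyc) C :=
  polLift φ hm h2 hy hdy hyc (c := 0) (Submodule.zero_mem _) (by rw [h, map_zero])
    (fun b => by rw [zero_mul, mul_zero])

@[simp] theorem polZero_C (h : φ.f y = 0) (a : A) :
    (polZero φ hm h2 hy hdy hyc h).f (Polynomial.C a) = φ.f a := polLift_C ..

@[simp] theorem polZero_X (h : φ.f y = 0) :
    (polZero φ hm h2 hy hdy hyc h).f X = 0 := polLift_X ..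

theorem polZero_apply (h : φ.f y = 0) (p : A[X]) :
    (polZero φ hm h2 hy hdy hyc h).f p = φ.f (p.coeff 0) := by
  change p.eval₂ (φ.f : A →+* A') 0 = _
  rw [eval₂_at_zero]
  rfl

end NDga.Hom

namespace CHom

variable {k : Type*} [Field k] {A A' : Type*} [Ring A] [Algebra k A] [Ring A'] [Algebra k A']
  {C : Cdga k A} {D : NDga k A'} (φ : CHom C D) {m : ℕ} (hm : Even m) (h2 : (2 : k) ≠ 0)
  {y : A} (hy : y ∈ C.deg (m + 1)) (hdy : C.d y = 0)

/-- **the extension of a central morphism** `C [b] → D [b]` -/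
noncomputable def pol : CHom (V651.pol C hm h2 hy hdy)
    (D.pol hm h2 (φ.deg' hy) (φ.d_closed hdy) (φ.central_odd hy hm.add_one)) where
  f := mapAlgHom φ.f
  deg := by
    intro p a ha i
    rw [coeff_mapAlgHom_apply]
    rcases C.mem_degS (ha i) with h | ⟨j, h, h1⟩
    · rw [h, map_zero]
      exact Submodule.zero_mem _
    · exact D.degS_of h (φ.deg' h1)
  sg a := by
    ext n
    change (mapAlgHom φ.f (mapAlgHom C.sg a)).coeff n = (mapAlgHom D.sg (mapAlgHom φ.f a)).coeff n
    simp only [coeff_mapAlgHom_apply, φ.sg']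
  d a := by
    ext n
    change (mapAlgHom φ.f (V651.pd C y a)).coeff n = (D.pd (φ.f y) (mapAlgHom φ.f a)).coeff n
    rw [coeff_mapAlgHom_apply, V651.pd_coeff, NDga.pd_coeff, coeff_mapAlgHom_apply,
      coeff_mapAlgHom_apply, map_add, map_mul, map_mul, map_add, map_natCast, map_one, φ.d',
      φ.sg']
  central := by
    intro p a ha b
    have key : ∀ (q : ℕ) (b : A'[X]) (n : ℕ), ((mapAlgHom D.sg)^[q] b).coeff n =
        D.sg^[q] (b.coeff n) := by
      intro q
      induction q with
      | zero => intro b n; rfl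
      | succ q ih =>
        intro b n
        rw [Function.iterate_succ_apply', Function.iterate_succ_apply', coeff_mapAlgHom_apply, ih]
    ext n
    change (mapAlgHom φ.f a * b).coeff n = ((mapAlgHom D.sg)^[p] b * mapAlgHom φ.f a).coeff n
    rw [coeff_mul, coeff_mul, ← Finset.Nat.sum_antidiagonal_swap]
    refine Finset.sum_congr rfl fun x _ => ?_
    rw [key, Prod.fst_swap, Prod.snd_swap, coeff_mapAlgHom_apply]
    rcases C.mem_degS (ha x.2) with h | ⟨j, h, h1⟩
    · rw [h, map_zero, zero_mul, mul_zero]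
    · rw [φ.central h1]
      congr 1
      rw [h]
      rcases Nat.even_or_odd j with hj | hj
      · rw [D.sg_iter_even hj, D.sg_iter_even (hj.add (hm.mul_left _))]
      · rw [D.sg_iter_odd hj, D.sg_iter_odd (hj.add_even (hm.mul_left _))]

@[simp] theorem pol_coeff (p : A[X]) (n : ℕ) :
    ((φ.pol hm h2 hy hdy).f p).coeff n = φ.f (p.coeff n) := coeff_mapAlgHom_apply _ _ _

@[simp] theorem pol_C (a : A) :
    (φ.pol hm h2 hy hdy).f (Polynomial.C a) = Polynomial.C (φ.f a) := by
  change mapAlgHom φ.f (Polynomial.C a) = _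
  rw [coe_mapAlgHom, map_C]
  rfl

@[simp] theorem pol_X : (φ.pol hm h2 hy hdy).f X = X := by
  change mapAlgHom φ.f X = _
  rw [coe_mapAlgHom, map_X]

/-- functoriality of `D [b]` over a map of the bases -/
noncomputable def polMap {B B' : Type*} [Ring B] [Algebra k B] [Ring B'] [Algebra k B']
    {C' : Cdga k B} {D' : NDga k B'} (φ' : CHom C' D') (g : NDga.Hom D D') {y' : B}
    (hy' : y' ∈ C'.deg (m + 1)) (hdy' : C'.d y' = 0) (h : g.f (φ.f y) = φ'.f y') :
    NDga.Hom (D.pol hm h2 (φ.deg' hy) (φ.d_closed hdy) (φ.central_odd hy hm.add_one))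
      (D'.pol hm h2 (φ'.deg' hy') (φ'.d_closed hdy') (φ'.central_odd hy' hm.add_one)) :=
  g.polMap hm h2 _ _ _ _ _ _ h

@[simp] theorem polMap_coeff {B B' : Type*} [Ring B] [Algebra k B] [Ring B'] [Algebra k B']
    {C' : Cdga k B} {D' : NDga k B'} (φ' : CHom C' D') (g : NDga.Hom D D') {y' : B}
    (hy' : y' ∈ C'.deg (m + 1)) (hdy' : C'.d y' = 0) (h : g.f (φ.f y) = φ'.f y') (p : A'[X])
    (n : ℕ) : ((φ.polMap hm h2 hy hdy φ' g hy' hdy' h).f p).coeff n = g.f (p.coeff n) :=
  NDga.Hom.polMap_coeff ..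

end CHom

end Vale.Agent.P216.V609
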