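import Vale.Agent.P216.H651.TwoBase
import Vale.Agent.P216.B609.FinMan
import Vale.Agent.P216.DV706.PInstC
import Vale.Agent.P216.MV337.ToX
import Vale.Agent.P216.H539.StMoore

/-!
# P216-V, block V6 (growth): the total cohomology of the closed Moore paths of duration `t`

If a closed Riemannian manifold `M` has only finitely many prime closed geodesics, then for every
field `k` of characteristic not two the images of the restriction maps
`H^n(FL M (t + 3)) → H^n(FL M t)` have total dimension at most `C (t + 1)` (Gromoll-Meyer).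
-/

set_option linter.unusedSectionVars false

open Set Topology Bundle Manifold
open scoped ContDiff
open Module (finrank)

namespace Vale.Agent.P216.GSys

open Vale.Agent.P265.AS (hh hh_triple hh_self)
open H804 B609

variable {Λ : Type} [PseudoMetricSpace Λ] {S : GSys Λ} {k : Type} [Field k]

/-- **Linear growth.** -/
theorem exists_sum_rank_le (hL : S.LevelBoundK k) (h0 : S.BaseFinK k) : ∃ C : ℕ,
    ∀ s : ℝ, 0 < s → s ∉ AS.Crit S.ℓ → ∀ m : ℕ,
      ∑ n ∈ Finset.range m, Module.rank k (S.V k s n) ≤ ((C * (⌈s⌉₊ + 1) : ℕ) : Cardinal) := by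
  classical
  have := S.fin
  obtain ⟨inst⟩ := nonempty_fintype S.ι
  obtain ⟨C₁, hC₁⟩ := hL
  obtain ⟨s₀, hs₀, hℓ, h1, N, hN⟩ := h0
  -- the total rank at the level `s₀`
  set D : ℕ := ∑ n ∈ Finset.range N, finrank k (S.V k s₀ n) with hD
  have hD' : ∀ m : ℕ, ∑ n ∈ Finset.range m, Module.rank k (S.V k s₀ n) ≤ (D : Cardinal) := by
    intro m
    have e1 : ∀ n, Module.rank k (S.V k s₀ n) = (finrank k (S.V k s₀ n) : Cardinal) := fun n => by
      have := h1 n
      exact (Module.finrank_eq_rank _ _).symm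
    simp only [e1]
    rw [← Nat.cast_sum]
    have e2 : ∑ n ∈ Finset.range m, finrank k (S.V k s₀ n) ≤
        ∑ n ∈ Finset.range (max m N), finrank k (S.V k s₀ n) :=
      Finset.sum_le_sum_of_subset (Finset.range_mono (le_max_left _ _))
    have e3 : ∑ n ∈ Finset.range (max m N), finrank k (S.V k s₀ n) = D := by
      refine (Finset.sum_subset (Finset.range_mono (le_max_right m N)) fun n _ hn => ?_).symm
      have := hN n (by simpa using hn)
      exact Module.finrank_zero_of_subsingleton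
    exact_mod_cast e2.trans_eq e3
  refine ⟨D + (∑ i, (⌈1 / S.ℓ i⌉₊ + 1)) * C₁, fun s hs hsc m => ?_⟩
  rcases le_total s s₀ with h | h
  · have hb := fun n => S.res_bijective (k := k) hs h
      (fun a ha => S.not_crit_of_lt' hℓ ha.2) (S.mono _ _ h) n
    have e1 : ∑ n ∈ Finset.range m, Module.rank k (S.V k s n) ≤
        ∑ n ∈ Finset.range m, Module.rank k (S.V k s₀ n) :=
      Finset.sum_le_sum fun n _ => LinearMap.rank_le_of_surjective _ (hb n).2
    refine (e1.trans (hD' m)).trans ?_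
    have e3 : D ≤ (D + (∑ i, (⌈1 / S.ℓ i⌉₊ + 1)) * C₁) * (⌈s⌉₊ + 1) := by nlinarith [Nat.zero_le ((∑ i, (⌈1 / S.ℓ i⌉₊ + 1)) * C₁), Nat.zero_le ⌈s⌉₊, Nat.zero_le (D * ⌈s⌉₊), Nat.zero_le ((∑ i, (⌈1 / S.ℓ i⌉₊ + 1)) * C₁ * ⌈s⌉₊)]
    exact_mod_cast e3
  · obtain ⟨F, hF, hFc⟩ := exists_finset_crit S.ℓ_pos (s := s₀) (t := s) (L := s) (by linarith)
    have hsum := S.sum_hh_le hC₁ hs₀ (S.not_crit_of_lt' hℓ le_rfl) m F.card F rfl s h hsc hF
    have hle : ∀ n, Module.rank k (S.V k s n) ≤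
        Module.rank k (S.V k s₀ n) + hh S.τ (-1 : k) (S.X s) (S.X s₀) n := by
      intro n
      rw [H804.rank_Ha, H804.rank_Ha]
      exact hh_triple (empty_subset _) (S.mono _ _ h) (S.inv_X s₀) _ n
    have e1 : ∑ n ∈ Finset.range m, Module.rank k (S.V k s n) ≤
        (D : Cardinal) + ((F.card * C₁ : ℕ) : Cardinal) := by
      refine (Finset.sum_le_sum fun n _ => hle n).trans ?_
      rw [Finset.sum_add_distrib]
      exact add_le_add (hD' m) hsum
    refine e1.trans ?_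
    have e2 : F.card ≤ (∑ i, (⌈1 / S.ℓ i⌉₊ + 1)) * (⌈s⌉₊ + 1) := by
      refine hFc.trans ?_
      rw [Finset.sum_mul]
      refine Finset.sum_le_sum fun i _ => ?_
      have h2 : ⌊s / S.ℓ i⌋₊ ≤ ⌈s⌉₊ * ⌈1 / S.ℓ i⌉₊ := by
        refine Nat.floor_le_of_le ?_
        push_cast
        rw [div_eq_mul_one_div]
        exact mul_le_mul (Nat.le_ceil _) (Nat.le_ceil _) (by have := S.ℓ_pos i; positivity)
          (Nat.cast_nonneg _)
      nlinarith
    have e3 : D + F.card * C₁ ≤ (D + (∑ i, (⌈1 / S.ℓ i⌉₊ + 1)) * C₁) * (⌈s⌉₊ + 1) := by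
      have h3 : F.card * C₁ ≤ (∑ i, (⌈1 / S.ℓ i⌉₊ + 1)) * (⌈s⌉₊ + 1) * C₁ :=
        Nat.mul_le_mul_right _ e2
      have h4 : D ≤ D * (⌈s⌉₊ + 1) := Nat.le_mul_of_pos_right _ (Nat.succ_pos _)
      calc D + F.card * C₁ ≤ D * (⌈s⌉₊ + 1) +
            (∑ i, (⌈1 / S.ℓ i⌉₊ + 1)) * (⌈s⌉₊ + 1) * C₁ := add_le_add h4 h3
        _ = _ := by ring
    exact_mod_cast e3

end Vale.Agent.P216.GSys

namespace Vale.Agent.P216.V609

open AS GM B64 B633 B609 Low DV706 H651 MV337
open Vale.Agent.P216.H288 Vale.Agent.P216.H494 Vale.Agent.P216.L250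
open Vale.Agent.P216.H901 (SpIntl Hp)

section

variable {M : Type} [MetricSpace M] [CompactSpace M] (G : GeoList M)
  (hD : DescentStmt (Hol.triv : Hol M) G)

/-- **Finiteness at a low level** from the finiteness of the cohomology of `M`, one field. -/
theorem baseFinK_of_finM (hF : FinM M) (k : Type) [Field k] (h2 : (2 : k) ≠ 0) :
    (mkGSys Hol.triv G hD).BaseFinK k := by
  obtain ⟨s₁, hr⟩ := exists_retr (Hol.triv : Hol M) G hD
  obtain ⟨s₀, h0, h1, h2'⟩ := GSys.exists_lt_ℓ (mkGSys Hol.triv G hD) hr.pos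
  have key : ∀ q, ∃ e : (mkGSys Hol.triv G hD).V k s₀ q →ₗ[k] Hu k (univ : Set M) q,
      Function.Bijective e := by
    intro q
    have hb := hr.res_bijective (k := k) h0 h1 h2' q
    have hs := sec_bijective (k := k) (Hol.triv : Hol M) q
    have h3 : ∀ Y, (mkGSys Hol.triv G hD).X 0 = Y →
        ∃ e : (mkGSys Hol.triv G hD).V k s₀ q →ₗ[k]
        Ha (fun _ : Unit => deckC) (fun _ : Unit => (-1 : k)) Y q, Function.Bijective e := by
      rintro _ rfl
      exact ⟨_, hb⟩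
    obtain ⟨e, he⟩ := h3 _ (XX_eq le_rfl)
    exact ⟨(AS.Hmap (isMor_sec (k := k) (Hol.triv : Hol M)) q) ∘ₗ e, by
      rw [LinearMap.coe_comp]
      exact hs.comp he⟩
  obtain ⟨h4, N, h5⟩ := hF k h2
  refine ⟨s₀, h0, h2', fun q => ?_, N, fun q hq => ?_⟩
  · obtain ⟨e, he⟩ := key q
    obtain ⟨e', he'⟩ := hinc_bijective k (univ : Set M) q
    have := h4 q
    have := Module.Finite.of_surjective e' he'.2
    exact Module.Finite.equiv (LinearEquiv.ofBijective e he).symm
  · obtain ⟨e, he⟩ := key q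
    obtain ⟨e', he'⟩ := hinc_bijective k (univ : Set M) q
    have := h5 q hq
    have := he'.2.subsingleton
    exact he.1.subsingleton

end

/-- rank of a restriction map -/
noncomputable def rkres (k : Type) [Field k] {E : Type} [PseudoMetricSpace E] {X Y : Set E}
    (h : X ⊆ Y) (n : ℕ) : Cardinal := Module.rank k (LinearMap.range (hres k h n))

/-- a factorisation bounds the rank -/
theorem rkres_le_of_factor {k : Type} [Field k] {A B C : Type} [AddCommGroup A] [Module k A]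
    [AddCommGroup B] [Module k B] [AddCommGroup C] [Module k C] {f : A →ₗ[k] C}
    {g : A →ₗ[k] B} {h : B →ₗ[k] C} (e : ∀ x, f x = h (g x)) :
    Module.rank k (LinearMap.range f) ≤ Module.rank k B := by
  have h1 : LinearMap.range f ≤ LinearMap.range h := by
    rintro _ ⟨x, rfl⟩
    exact ⟨g x, (e x).symm⟩
  exact (Submodule.rank_mono h1).trans (rank_range_le h)

theorem rkres_mono {k : Type} [Field k] {E : Type} [PseudoMetricSpace E] {X Y X' Y' : Set E}
    (h : X ⊆ Y) (h' : X' ⊆ Y') (hX : X' ⊆ X) (hY : Y ⊆ Y') (n : ℕ) :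
    rkres k h' n ≤ rkres k h n := by
  have h1 : LinearMap.range (hres k h' n) ≤
      (LinearMap.range (hres k h n)).map (hres k hX n) := by
    rintro _ ⟨x, rfl⟩
    refine ⟨hres k h n (hres k hY n x), ⟨_, rfl⟩, ?_⟩
    rw [AS.res_res, AS.res_res]
  exact (Submodule.rank_mono h1).trans (rank_map_le _ _)

/-- **Growth (Gromoll-Meyer)** for the closed Moore paths. -/
theorem growth
    {E : Type} [NormedAddCommGroup E] [NormedSpace ℝ E] [FiniteDimensional ℝ E]
    {M : Type} [MetricSpace M] [CompactSpace M] [ChartedSpace E M] [IsManifold 𝓘(ℝ, E) ∞ M]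
    [RiemannianBundle (fun x : M => TangentSpace 𝓘(ℝ, E) x)]
    [IsContMDiffRiemannianBundle 𝓘(ℝ, E) ∞ E (fun x : M => TangentSpace 𝓘(ℝ, E) x)]
    [IsRiemannianManifold 𝓘(ℝ, E) M] [PreconnectedSpace M]
    (hfin : ¬ (primeClosedGeodesicImages M).Infinite) (k : Type) [Field k] (h2 : (2 : k) ≠ 0) :
    ∃ C : ℕ, ∀ t : ℝ, 0 < t → ∀ m : ℕ, ∑ n ∈ Finset.range m,
      rkres k (FL_mono (by linarith) : FL M t ⊆ FL M (t + 3)) n ≤
        ((C * (⌈t⌉₊ + 1) : ℕ) : Cardinal) := by
  obtain ⟨ρ, hρ, hs, _⟩ := Geo.exists_uniqSeg E M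
  obtain ⟨G⟩ := exists_geoList (nonBranching_of_riemannian (E := E) (M := M))
    (not_infinite.1 hfin)
  have hLOC : GM.LOC M := H319.loc (E := E) hρ hs (H844.f4_M E M)
  have hD := descentStmt (Hol.triv : Hol M) G hρ hs
  have hL : (mkGSys Hol.triv G hD).LevelBoundK k :=
    GM.levelBoundK k (GM.f1 hρ hs) hLOC GM.tw Hol.triv G hD
  have h0 := baseFinK_of_finM G hD (finM_of_chartedSpace E) k h2
  obtain ⟨C, hC⟩ := GSys.exists_sum_rank_le hL h0
  obtain ⟨I, hI⟩ := Vale.Agent.P216.MR.stMoore M ρ hρ hs 1 one_pos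
  refine ⟨C * 3, fun t ht m => ?_⟩
  -- a regular level `s ∈ [t + 1, t + 2]`
  obtain ⟨s, hs1, hsc⟩ := (mkGSys Hol.triv G hD).exists_reg_level (a := t + 1) (b := t + 2)
    (by linarith)
  have hs0 : 0 < s := by linarith [hs1.1]
  have key : ∀ n, rkres k (FL_mono (by linarith) : FL M t ⊆ FL M (t + 3)) n ≤
      Module.rank k ((mkGSys Hol.triv G hD).V k s n) := by
    intro n
    have e0 : s - 1 + 1 = s := by ring
    have hsub : XE M (s - 1 + 1) ⊆ XL M s := by rw [XL_eq hs0.le, e0]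
    have hsub' : XL M s ⊆ XE M (s - 1 + 1) := by rw [XL_eq hs0.le, e0]
    have ht1 : 0 < s - 1 := by linarith [hs1.1]
    -- from `FL (s - 1)` to `XL s` to `FL (s + 1)`
    have hg : B64.UMap (FL M (s - 1)) (XL M s) (I.g (s - 1)) := umg I ht1 le_rfl hsub
    have hf : B64.UMap (XL M s) (FL M (t + 3)) (I.f (s - 1 + 1)) :=
      umf I (by linarith) hsub' (by linarith [hs1.2])
    have e1 : ∀ x, hres k (FL_mono (by linarith [hs1.1]) : FL M t ⊆ FL M (t + 3)) n x =
        (hres k (FL_mono (by linarith [hs1.1]) : FL M t ⊆ FL M (s - 1)) n ∘ₗ hpull k hg n)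
          (hpull k hf n x) := by
      intro x
      rw [LinearMap.comp_apply, hpull_hpull _ _ (hf.comp hg)]
      have h3 := hpull_gf I (k := k) (q := n) ht1 (umg I ht1 le_rfl le_rfl)
        (umf I (u := t + 3) (by linarith) le_rfl (by linarith [hs1.2])) (by linarith [hs1.2]) x
      rw [hpull_hpull _ _ (hf.comp hg)] at h3
      rw [h3, AS.res_res]
    refine (rkres_le_of_factor e1).trans ?_
    exact (phi G hD k s n).symm.rank_eq.le
  refine (Finset.sum_le_sum fun n _ => key n).trans ((hC s hs0 hsc m).trans ?_)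
  have h3 : C * (⌈s⌉₊ + 1) ≤ C * 3 * (⌈t⌉₊ + 1) := by
    have h4 : ⌈s⌉₊ ≤ ⌈t⌉₊ + 2 := by
      refine Nat.ceil_le.2 ?_
      push_cast
      linarith [Nat.le_ceil t, hs1.2]
    calc C * (⌈s⌉₊ + 1) ≤ C * (3 * (⌈t⌉₊ + 1)) := Nat.mul_le_mul_left _ (by omega)
      _ = _ := by ring
  exact_mod_cast h3

end Vale.Agent.P216.V609
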