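import Vale.Agent.P216.V609.Rank
import Vale.Agent.P216.V754.WData

/-!
# P216-V: linear growth of the total cohomology of the tower `A (FL M t)` (base case of V4)
-/

set_option linter.unusedSectionVars false

open Set Topology Bundle Manifold
open scoped ContDiff
open Submodule LinearMap

universe v u

namespace Vale.Agent.P216.V609

open AS GM B64 B609 H494 L250 MV337 V754

variable {k : Type} [Field k] {B B' : Type u} [Ring B] [Algebra k B] [Ring B'] [Algebra k B']
  {E : Type} [PseudoMetricSpace E] {X Y : Set E}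

/-- The rank of `H^n(C) → H^n(C')` is at most the rank of `H^n(Y) → H^n(X)`. -/
theorem rk_le_rkres (h : X ⊆ Y) {C : Cdga k B} {C' : Cdga k B'} (wY : WData C Y)
    (wX : WData C' X) (φ : Cdga.Hom C C') (hφ : ∀ n f, φ.f (wY.W n f) = wX.W n f) {n m : ℕ}
    (hm : rkres k h n = m) : rk φ n ≤ m := by
  refine rank_le fun s hs => ?_
  have h1 : ∀ i : Fin s.card, ∃ z ∈ C.Z n,
      (C'.B n).mkQ (φ.f z) = ((s.equivFin.symm i).1 : B' ⧸ C'.B n) := fun i => by
    obtain ⟨z, hz, hz'⟩ := ((s.equivFin.symm i).1 : img φ n).2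
    exact ⟨z, hz, hz'⟩
  choose z hz hz' using h1
  have hs : LinearIndependent k fun i : Fin s.card => ((s.equivFin.symm i).1 : img φ n) :=
    hs.comp _ s.equivFin.symm.injective
  have h2 := card_le_rkres h wY wX φ hφ z hz (fun a ha => by
    rw [Fintype.linearIndependent_iff] at hs
    funext i
    refine hs a ?_ i
    apply Subtype.val_injective
    rw [AddSubmonoidClass.coe_finsetSum]
    have h3 : (C'.B n).mkQ (∑ i, a i • φ.f (z i)) = 0 := by
      rw [Submodule.mkQ_apply, Submodule.Quotient.mk_eq_zero]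
      exact ha
    rw [map_sum] at h3
    refine Eq.trans (Finset.sum_congr rfl fun i _ => ?_) h3
    rw [map_smul, hz' i]
    rfl)
  rw [hm, Fintype.card_fin] at h2
  exact_mod_cast h2

/-- **Linear growth of the tower of the closed Moore paths.** -/
theorem linBd_of_wData
    {E : Type} [NormedAddCommGroup E] [NormedSpace ℝ E] [FiniteDimensional ℝ E]
    {M : Type} [MetricSpace M] [CompactSpace M] [ChartedSpace E M] [IsManifold 𝓘(ℝ, E) ∞ M]
    [RiemannianBundle (fun x : M => TangentSpace 𝓘(ℝ, E) x)]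
    [IsContMDiffRiemannianBundle 𝓘(ℝ, E) ∞ E (fun x : M => TangentSpace 𝓘(ℝ, E) x)]
    [IsRiemannianManifold 𝓘(ℝ, E) M] [PreconnectedSpace M]
    (hfin : ¬ (primeClosedGeodesicImages M).Infinite) {k : Type} [Field k] (h2 : (2 : k) ≠ 0)
    (S : Sys.{0, v, u} k) (w : ∀ t, WData (S.C t) (FL M t))
    (hw : ∀ s t h n f, (S.ρ s t h).f ((w s).W n f) = (w t).W n f) : S.LinBd := by
  obtain ⟨C, hC⟩ := growth (E := E) hfin k h2
  refine ⟨3, by norm_num, C, fun t ht m => ?_⟩
  have h3 : FL M t ⊆ FL M (t + 3) := FL_mono (by linarith)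
  have h1 : ∀ n, ∃ r : ℕ, rkres k h3 n = r := fun n => by
    refine Cardinal.lt_aleph0.1 (lt_of_le_of_lt ?_
      ((hC t ht (n + 1)).trans_lt (Cardinal.natCast_lt_aleph0)))
    exact Finset.single_le_sum (f := fun n => rkres k h3 n) (fun _ _ => zero_le)
      (Finset.self_mem_range_succ n)
  choose r hr using h1
  have h4 : ∑ n ∈ Finset.range m, r n ≤ C * (⌈t⌉₊ + 1) := by
    have h5 := hC t ht m
    have h6 : ∑ n ∈ Finset.range m, rkres k h3 n = ((∑ n ∈ Finset.range m, r n : ℕ) : Cardinal) := by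
      rw [Nat.cast_sum]
      exact Finset.sum_congr rfl fun n _ => hr n
    have h7 := h6.symm.trans_le h5
    exact_mod_cast h7
  calc ∑ n ∈ Finset.range m, rk (S.ρ (t + 3) t (by linarith)) n
      ≤ ∑ n ∈ Finset.range m, (r n : Cardinal.{u}) := Finset.sum_le_sum fun n _ =>
        rk_le_rkres h3 (w (t + 3)) (w t) _ (hw _ _ _) (hr n)
    _ = ((∑ n ∈ Finset.range m, r n : ℕ) : Cardinal.{u}) := (Nat.cast_sum _ _).symm
    _ ≤ _ := by exact_mod_cast h4

end Vale.Agent.P216.V609
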