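import Vale.Agent.P216.V609.NRank
import Vale.Agent.P216.V609.LinGA

/-!
# P216-V: linear growth of the total cohomology of a tower of dgas over the closed Moore paths

`NWData D X`: a chain map from the list cochains of `X` to the dga `D` which is onto on
cohomology (754's `WData` for `NDga`).
-/

set_option linter.unusedSectionVars false

open Set Topology Bundle Manifold
open scoped ContDiff
open Submodule LinearMap

universe v u

namespace Vale.Agent.P216.V609

open AS GM B64 B609 H494 L250 MV337 V754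
open Vale.Agent.P216.H288
open Vale.Agent.P216.Sl (CocL ExL cls cls_eq_zero)

/-- A chain map from the list cochains of `X` to the dga `C`, surjective on cohomology. -/
structure NWData {k : Type} [Field k] {B : Type*} [Ring B] [Algebra k B] (C : NDga k B)
    {E : Type} [PseudoMetricSpace E] (X : Set E) where
  W : ℕ → (List E → k) →ₗ[k] B
  mem : ∀ n f, W n f ∈ C.deg n
  d : ∀ n f, C.d (W n f) = W (n + 1) (Sl.dl f)
  congr : ∀ n f g, (∃ ε > 0, ∀ l, l.length = n + 1 → PS.SmL X ε l → f l = g l) → W n f = W n g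
  surj : ∀ n z, z ∈ C.Z n → ∃ f, CocL X n f ∧ z - W n f ∈ C.B n

/-- the commutative case -/
def _root_.Vale.Agent.P216.V754.WData.toN {k : Type} [Field k] {B : Type*} [Ring B] [Algebra k B]
    {C : Cdga k B} {E : Type} [PseudoMetricSpace E] {X : Set E} (w : WData C X) :
    NWData C.toN X where
  W := w.W
  mem := w.mem
  d := w.d
  congr := w.congr
  surj n z hz := by
    obtain ⟨f, hf, h⟩ := w.surj n z hz
    exact ⟨f, hf, by rwa [Cdga.toN_B]⟩

variable {k : Type} [Field k] {B B' : Type u} [Ring B] [Algebra k B] [Ring B'] [Algebra k B']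
  {E : Type} [PseudoMetricSpace E] {X Y : Set E}

theorem NWData.exact {C : NDga k B} (w : NWData C X) {n : ℕ} {f : List E → k} (h : ExL X n f) :
    w.W n f ∈ C.B n := by
  obtain ⟨g, hg, ε, hε, h⟩ := h
  cases n with
  | zero =>
    have h1 : w.W 0 f = w.W 0 0 := by
      refine w.congr 0 f 0 ⟨ε, hε, fun l hl hs => ?_⟩
      rw [h l hl hs, show g = fun _ => 0 from funext (hg rfl), PS.dl_zero_fun]
      rfl
    rw [h1, map_zero]
    exact Submodule.zero_mem _
  | succ n =>
    have h1 : w.W (n + 1) f = w.W (n + 1) (Sl.dl g) := w.congr _ _ _ ⟨ε, hε, h⟩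
    rw [h1, ← w.d]
    exact ⟨_, w.mem n g, rfl⟩

/-- **(7c)** for dgas -/
theorem card_le_rkresN (h : X ⊆ Y) {C : NDga k B} {C' : NDga k B'} (wY : NWData C Y)
    (wX : NWData C' X) (φ : NDga.Hom C C') (hφ : ∀ n f, φ.f (wY.W n f) = wX.W n f) {n : ℕ}
    {ι : Type} [Fintype ι] (z : ι → B) (hz : ∀ i, z i ∈ C.Z n)
    (hi : ∀ a : ι → k, ∑ i, a i • φ.f (z i) ∈ C'.B n → a = 0) :
    (Fintype.card ι : Cardinal) ≤ rkres k h n := by
  classical
  choose f hf hzf using fun i => wY.surj n (z i) (hz i)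
  have h1 : LinearIndependent k fun i => hres k h n (cls (a0 E) (c0 k) (f i) (hf i)) := by
    rw [Fintype.linearIndependent_iff]
    intro a ha
    have h2 : ∑ i, a i • cls (a0 E) (c0 k) (f i) ((hf i).mono h) = 0 := ha
    rw [cls_sum' Finset.univ f (fun i => (hf i).mono h) a, cls_eq_zero] at h2
    have h3 := wX.exact h2
    have h4 : (fun l => ∑ i, a i * f i l) = ∑ i, a i • f i := by
      funext l
      simp
    rw [h4, map_sum] at h3
    have h5 : a = 0 := by
      refine hi a ?_
      have h6 : ∑ i, a i • φ.f (z i) = ∑ i, wX.W n (a i • f i) +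
          ∑ i, a i • φ.f (z i - wY.W n (f i)) := by
        rw [← Finset.sum_add_distrib]
        refine Finset.sum_congr rfl fun i _ => ?_
        rw [map_smul, map_sub, hφ, smul_sub]
        abel
      rw [h6]
      exact Submodule.add_mem _ h3 (Submodule.sum_mem _ fun i _ =>
        Submodule.smul_mem _ _ (φ.map_B (hzf i)))
    exact fun i => congrFun h5 i
  have h2 : LinearIndependent k fun i => (⟨hres k h n (cls (a0 E) (c0 k) (f i) (hf i)),
      ⟨_, rfl⟩⟩ : LinearMap.range (hres k h n)) := by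
    rw [← LinearMap.linearIndependent_iff (Submodule.subtype _) (Submodule.ker_subtype _)]
    exact h1
  have h3 := h2.cardinal_le_rank
  rwa [Cardinal.mk_fintype] at h3

/-- The rank of `H^n(C) → H^n(C')` is at most the rank of `H^n(Y) → H^n(X)`. -/
theorem rkN_le_rkres (h : X ⊆ Y) {C : NDga k B} {C' : NDga k B'} (wY : NWData C Y)
    (wX : NWData C' X) (φ : NDga.Hom C C') (hφ : ∀ n f, φ.f (wY.W n f) = wX.W n f) {n m : ℕ}
    (hm : rkres k h n = m) : rkN φ n ≤ m := by
  refine rank_le fun s hs => ?_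
  have h1 : ∀ i : Fin s.card, ∃ z ∈ C.Z n,
      (C'.B n).mkQ (φ.f z) = ((s.equivFin.symm i).1 : B' ⧸ C'.B n) := fun i => by
    obtain ⟨z, hz, hz'⟩ := ((s.equivFin.symm i).1 : imgN φ n).2
    exact ⟨z, hz, hz'⟩
  choose z hz hz' using h1
  have hs : LinearIndependent k fun i : Fin s.card => ((s.equivFin.symm i).1 : imgN φ n) :=
    hs.comp _ s.equivFin.symm.injective
  have h2 := card_le_rkresN h wY wX φ hφ z hz (fun a ha => by
    rw [Fintype.linearIndependent_iff] at hs
    funext i
    refine hs a ?_ i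
    apply Subtype.val_injective
    rw [AddSubmonoidClass.coe_finsetSum]
    have h3 : (C'.B n).mkQ (∑ i, a i • φ.f (z i)) = 0 := by
      rw [Submodule.mkQ_apply, Submodule.Quotient.mk_eq_zero]
      exact ha
    rw [map_sum] at h3
    refine Eq.trans (Finset.sum_congr rfl fun i _ => ?_) h3
    rw [map_smul, hz' i]
    rfl)
  rw [hm, Fintype.card_fin] at h2
  exact_mod_cast h2

/-- **Linear growth of the tower over the closed Moore paths.** -/
theorem linBd_of_nwData
    {E : Type} [NormedAddCommGroup E] [NormedSpace ℝ E] [FiniteDimensional ℝ E]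
    {M : Type} [MetricSpace M] [CompactSpace M] [ChartedSpace E M] [IsManifold 𝓘(ℝ, E) ∞ M]
    [RiemannianBundle (fun x : M => TangentSpace 𝓘(ℝ, E) x)]
    [IsContMDiffRiemannianBundle 𝓘(ℝ, E) ∞ E (fun x : M => TangentSpace 𝓘(ℝ, E) x)]
    [IsRiemannianManifold 𝓘(ℝ, E) M] [PreconnectedSpace M]
    (hfin : ¬ (primeClosedGeodesicImages M).Infinite) {k : Type} [Field k] (h2 : (2 : k) ≠ 0)
    (S : NSys.{0, v, u} k) (w : ∀ t, NWData (S.C t) (FL M t))
    (hw : ∀ s t h n f, (S.ρ s t h).f ((w s).W n f) = (w t).W n f) : S.LinBd := by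
  obtain ⟨C, hC⟩ := growth (E := E) hfin k h2
  refine ⟨3, by norm_num, C, fun t ht m => ?_⟩
  have h3 : FL M t ⊆ FL M (t + 3) := FL_mono (by linarith)
  have h1 : ∀ n, ∃ r : ℕ, rkres k h3 n = r := fun n => by
    refine Cardinal.lt_aleph0.1 (lt_of_le_of_lt ?_
      ((hC t ht (n + 1)).trans_lt (Cardinal.natCast_lt_aleph0)))
    exact Finset.single_le_sum (f := fun n => rkres k h3 n) (fun _ _ => zero_le)
      (Finset.self_mem_range_succ n)
  choose r hr using h1
  have h4 : ∑ n ∈ Finset.range m, r n ≤ C * (⌈t⌉₊ + 1) := by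
    have h5 := hC t ht m
    have h6 : ∑ n ∈ Finset.range m, rkres k h3 n =
        ((∑ n ∈ Finset.range m, r n : ℕ) : Cardinal) := by
      rw [Nat.cast_sum]
      exact Finset.sum_congr rfl fun n _ => hr n
    have h7 := h6.symm.trans_le h5
    exact_mod_cast h7
  calc ∑ n ∈ Finset.range m, rkN (S.ρ (t + 3) t (by linarith)) n
      ≤ ∑ n ∈ Finset.range m, (r n : Cardinal.{u}) := Finset.sum_le_sum fun n _ =>
        rkN_le_rkres h3 (w (t + 3)) (w t) _ (hw _ _ _) (hr n)
    _ = ((∑ n ∈ Finset.range m, r n : ℕ) : Cardinal.{u}) := (Nat.cast_sum _ _).symm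
    _ ≤ _ := by exact_mod_cast h4

end Vale.Agent.P216.V609
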