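import Vale.Agent.P216.V609.Cdga

/-!
# P216-V: differential graded algebras, not necessarily graded commutative (frame)

`NDga k A`: the fields of `Cdga` without `comm`. `NDga.ex D x`: `D ⟨e⟩` for a closed **central**
even element `x`; `e a = sg a e`. `CHom C D`: a morphism from a graded commutative `C` into the
graded centre of `D`.
-/

namespace Vale.Agent.P216.V609

/-- A differential graded algebra. -/
structure NDga (k : Type*) [Field k] (A : Type*) [Ring A] [Algebra k A] where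
  deg : ℕ → Submodule k A
  sg : A →ₐ[k] A
  d : A →ₗ[k] A
  one_mem : (1 : A) ∈ deg 0
  mul_mem : ∀ {p q : ℕ} {a b : A}, a ∈ deg p → b ∈ deg q → a * b ∈ deg (p + q)
  sg_deg : ∀ {p : ℕ} {a : A}, a ∈ deg p → sg a = (-1 : k) ^ p • a
  sg_sg : ∀ a, sg (sg a) = a
  sg_d : ∀ a, sg (d a) = -d (sg a)
  d_mem : ∀ {p : ℕ} {a : A}, a ∈ deg p → d a ∈ deg (p + 1)
  d_d : ∀ a, d (d a) = 0
  leib : ∀ a b, d (a * b) = d a * b + sg a * d b

/-- Forget the commutativity. -/
def Cdga.toN {k : Type*} [Field k] {A : Type*} [Ring A] [Algebra k A] (C : Cdga k A) :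
    NDga k A where
  deg := C.deg
  sg := C.sg
  d := C.d
  one_mem := C.one_mem
  mul_mem := C.mul_mem
  sg_deg := C.sg_deg
  sg_sg := C.sg_sg
  sg_d := C.sg_d
  d_mem := C.d_mem
  d_d := C.d_d
  leib := C.leib

namespace NDga

variable {k : Type*} [Field k] {A : Type*} [Ring A] [Algebra k A] (C : NDga k A)

theorem sg_even {p : ℕ} (b : A) : C.sg^[2 * p] b = b := by
  induction p with
  | zero => rfl
  | succ p ih =>
    rw [show 2 * (p + 1) = 2 * p + 1 + 1 by ring, Function.iterate_succ_apply',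
      Function.iterate_succ_apply', ih, C.sg_sg]

theorem sg_iter_even {p : ℕ} (h : Even p) (b : A) : C.sg^[p] b = b := by
  obtain ⟨l, rfl⟩ := h
  rw [← two_mul]
  exact C.sg_even b

theorem sg_iter_odd {p : ℕ} (h : Odd p) (b : A) : C.sg^[p] b = C.sg b := by
  obtain ⟨l, rfl⟩ := h
  exact (Function.iterate_succ_apply' C.sg (2 * l) b).trans (by rw [C.sg_even])

theorem sg_of_even {p : ℕ} {a : A} (ha : a ∈ C.deg p) (h : Even p) : C.sg a = a := by
  rw [C.sg_deg ha, h.neg_one_pow, one_smul]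

theorem sg_of_odd {p : ℕ} {a : A} (ha : a ∈ C.deg p) (h : Odd p) : C.sg a = -a := by
  rw [C.sg_deg ha, h.neg_one_pow, neg_one_smul]

theorem leib_even {p : ℕ} {a : A} (ha : a ∈ C.deg p) (h : Even p) (b : A) :
    C.d (a * b) = C.d a * b + a * C.d b := by rw [C.leib, C.sg_of_even ha h]

theorem leib_odd {p : ℕ} {a : A} (ha : a ∈ C.deg p) (h : Odd p) (b : A) :
    C.d (a * b) = C.d a * b - a * C.d b := by
  rw [C.leib, C.sg_of_odd ha h, neg_mul, sub_eq_add_neg]

theorem d_one : C.d 1 = 0 := by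
  have h := C.leib 1 1
  rw [mul_one, map_one C.sg, one_mul, mul_one] at h
  exact left_eq_add.1 h

theorem pow_mem {p : ℕ} {a : A} (ha : a ∈ C.deg p) (n : ℕ) : a ^ n ∈ C.deg (n * p) := by
  induction n with
  | zero => simpa using C.one_mem
  | succ n ih =>
    rw [pow_succ, Nat.succ_mul]
    exact C.mul_mem ih ha

/-- powers of a closed element are closed -/
theorem d_pow {a : A} (hd : C.d a = 0) (n : ℕ) :
    C.d (a ^ n) = 0 := by
  induction n with
  | zero => rw [pow_zero, C.d_one]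
  | succ n ih => rw [pow_succ', C.leib, ih, hd, zero_mul, mul_zero, add_zero]

theorem d_mul_closed {a b : A} (ha : C.d a = 0) (hb : C.d b = 0) : C.d (a * b) = 0 := by
  rw [C.leib, ha, hb, zero_mul, mul_zero, add_zero]

/-- the closed elements of degree `n` -/
def Z (n : ℕ) : Submodule k A := C.deg n ⊓ LinearMap.ker C.d

/-- the exact elements of degree `n` -/
def B (n : ℕ) : Submodule k A :=
  match n with
  | 0 => ⊥
  | n + 1 => (C.deg n).map C.d

theorem mem_Z {n : ℕ} {a : A} : a ∈ C.Z n ↔ a ∈ C.deg n ∧ C.d a = 0 := Iff.rfl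

theorem mem_B_zero {a : A} : a ∈ C.B 0 ↔ a = 0 := Iff.rfl

theorem mem_B_succ {n : ℕ} {a : A} : a ∈ C.B (n + 1) ↔ ∃ b ∈ C.deg n, C.d b = a := Iff.rfl

theorem B_le_Z (n : ℕ) : C.B n ≤ C.Z n := by
  cases n with
  | zero => exact bot_le
  | succ n =>
    rintro _ ⟨b, hb, rfl⟩
    exact ⟨C.d_mem hb, C.d_d b⟩

end NDga

namespace Cdga

variable {k : Type*} [Field k] {A : Type*} [Ring A] [Algebra k A] (C : Cdga k A)

@[simp] theorem toN_deg : C.toN.deg = C.deg := rfl
@[simp] theorem toN_sg : C.toN.sg = C.sg := rfl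
@[simp] theorem toN_d : C.toN.d = C.d := rfl
@[simp] theorem toN_Z (n : ℕ) : C.toN.Z n = C.Z n := rfl
@[simp] theorem toN_B (n : ℕ) : C.toN.B n = C.B n := by cases n <;> rfl

end Cdga

/-- Morphisms of dgas. -/
structure NDga.Hom {k : Type*} [Field k] {A A' : Type*} [Ring A] [Algebra k A] [Ring A']
    [Algebra k A'] (C : NDga k A) (C' : NDga k A') where
  f : A →ₐ[k] A'
  deg : ∀ {p : ℕ} {a : A}, a ∈ C.deg p → f a ∈ C'.deg p
  sg : ∀ a, f (C.sg a) = C'.sg (f a)
  d : ∀ a, f (C.d a) = C'.d (f a)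

/-- morphisms of cdgas as morphisms of dgas -/
def Cdga.Hom.toN {k : Type*} [Field k] {A A' : Type*} [Ring A] [Algebra k A] [Ring A']
    [Algebra k A'] {C : Cdga k A} {C' : Cdga k A'} (φ : Cdga.Hom C C') :
    NDga.Hom C.toN C'.toN where
  f := φ.f
  deg := φ.deg
  sg := φ.sg
  d := φ.d

namespace NDga.Hom

variable {k : Type*} [Field k] {A A' A'' : Type*} [Ring A] [Algebra k A] [Ring A'] [Algebra k A']
  [Ring A''] [Algebra k A''] {C : NDga k A} {C' : NDga k A'} {C'' : NDga k A''}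

/-- composition -/
def comp (g : NDga.Hom C' C'') (f : NDga.Hom C C') : NDga.Hom C C'' where
  f := g.f.comp f.f
  deg h := g.deg (f.deg h)
  sg a := by
    show g.f (f.f (C.sg a)) = C''.sg (g.f (f.f a))
    rw [f.sg, g.sg]
  d a := by
    show g.f (f.f (C.d a)) = C''.d (g.f (f.f a))
    rw [f.d, g.d]

@[simp] theorem comp_apply (g : NDga.Hom C' C'') (f : NDga.Hom C C') (a : A) :
    (g.comp f).f a = g.f (f.f a) := rfl

/-- identity -/
def id (C : NDga k A) : NDga.Hom C C where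
  f := AlgHom.id k A
  deg h := h
  sg _ := rfl
  d _ := rfl

theorem map_Z (φ : NDga.Hom C C') {n : ℕ} {a : A} (h : a ∈ C.Z n) : φ.f a ∈ C'.Z n :=
  ⟨φ.deg h.1, by
    have h2 : C.d a = 0 := h.2
    show C'.d (φ.f a) = 0
    rw [← φ.d, h2, map_zero]⟩

theorem map_B (φ : NDga.Hom C C') {n : ℕ} {a : A} (h : a ∈ C.B n) : φ.f a ∈ C'.B n := by
  cases n with
  | zero =>
    have h0 : a = 0 := h
    rw [h0, map_zero]
    exact Submodule.zero_mem _
  | succ n =>
    obtain ⟨b, hb, rfl⟩ := h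
    exact ⟨φ.f b, φ.deg hb, (φ.d b).symm⟩

end NDga.Hom

/-! ### Adjoining an odd generator `e` with `d e = x`, `x` central -/

/-- The carrier of `A ⟨e⟩`: the pair `(a, b)` is `a + b e`. -/
@[ext] structure NEx (k : Type*) [Field k] {A : Type*} [Ring A] [Algebra k A] (C : NDga k A) where
  fst : A
  snd : A

namespace NEx

variable {k : Type*} [Field k] {A : Type*} [Ring A] [Algebra k A] {C : NDga k A}

instance : Zero (NEx k C) := ⟨⟨0, 0⟩⟩
instance : One (NEx k C) := ⟨⟨1, 0⟩⟩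
instance : Add (NEx k C) := ⟨fun a b => ⟨a.1 + b.1, a.2 + b.2⟩⟩
instance : Neg (NEx k C) := ⟨fun a => ⟨-a.1, -a.2⟩⟩
instance : Sub (NEx k C) := ⟨fun a b => ⟨a.1 - b.1, a.2 - b.2⟩⟩
instance : Mul (NEx k C) := ⟨fun a b => ⟨a.1 * b.1, a.1 * b.2 + a.2 * C.sg b.1⟩⟩
instance : SMul k (NEx k C) := ⟨fun c a => ⟨c • a.1, c • a.2⟩⟩
instance : SMul ℕ (NEx k C) := ⟨fun c a => ⟨c • a.1, c • a.2⟩⟩
instance : SMul ℤ (NEx k C) := ⟨fun c a => ⟨c • a.1, c • a.2⟩⟩

@[simp] theorem fst_zero : (0 : NEx k C).1 = 0 := rfl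
@[simp] theorem snd_zero : (0 : NEx k C).2 = 0 := rfl
@[simp] theorem fst_one : (1 : NEx k C).1 = 1 := rfl
@[simp] theorem snd_one : (1 : NEx k C).2 = 0 := rfl
@[simp] theorem fst_add (a b : NEx k C) : (a + b).1 = a.1 + b.1 := rfl
@[simp] theorem snd_add (a b : NEx k C) : (a + b).2 = a.2 + b.2 := rfl
@[simp] theorem fst_neg (a : NEx k C) : (-a).1 = -a.1 := rfl
@[simp] theorem snd_neg (a : NEx k C) : (-a).2 = -a.2 := rfl
@[simp] theorem fst_sub (a b : NEx k C) : (a - b).1 = a.1 - b.1 := rfl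
@[simp] theorem snd_sub (a b : NEx k C) : (a - b).2 = a.2 - b.2 := rfl
@[simp] theorem fst_mul (a b : NEx k C) : (a * b).1 = a.1 * b.1 := rfl
@[simp] theorem snd_mul (a b : NEx k C) : (a * b).2 = a.1 * b.2 + a.2 * C.sg b.1 := rfl
@[simp] theorem fst_smul (c : k) (a : NEx k C) : (c • a).1 = c • a.1 := rfl
@[simp] theorem snd_smul (c : k) (a : NEx k C) : (c • a).2 = c • a.2 := rfl

/-- the underlying pair -/
def toProd (a : NEx k C) : A × A := (a.1, a.2)

theorem toProd_injective : Function.Injective (toProd : NEx k C → A × A) := fun a b h => by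
  cases a; cases b
  simpa [toProd] using h

instance : AddCommGroup (NEx k C) :=
  toProd_injective.addCommGroup _ rfl (fun _ _ => rfl) (fun _ => rfl) (fun _ _ => rfl)
    (fun _ _ => rfl) (fun _ _ => rfl)

instance : Module k (NEx k C) :=
  toProd_injective.module k ⟨⟨toProd, rfl⟩, fun _ _ => rfl⟩ (fun _ _ => rfl)

instance : Ring (NEx k C) where
  __ := (inferInstance : AddCommGroup (NEx k C))
  left_distrib a b c := by
    ext
    · simp [mul_add]
    · simp [mul_add]; abel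
  right_distrib a b c := by
    ext
    · simp [add_mul]
    · simp [add_mul]; abel
  zero_mul a := by ext <;> simp
  mul_zero a := by ext <;> simp
  mul_assoc a b c := by
    ext
    · simp [mul_assoc]
    · simp only [snd_mul, fst_mul, mul_add, add_mul, map_mul, mul_assoc]
      abel
  one_mul a := by ext <;> simp
  mul_one a := by ext <;> simp

instance : Algebra k (NEx k C) := Algebra.ofModule
  (fun r x y => by ext <;> simp [smul_add])
  (fun r x y => by ext <;> simp [smul_add])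

/-- the inclusion of `A` -/
def inl (C : NDga k A) : A →ₐ[k] NEx k C := AlgHom.ofLinearMap
  { toFun := fun a => ⟨a, 0⟩
    map_add' := fun a b => by ext <;> simp
    map_smul' := fun c a => by ext <;> simp } rfl (fun a b => by ext <;> simp)

@[simp] theorem inl_fst (a : A) : (inl C a).1 = a := rfl
@[simp] theorem inl_snd (a : A) : (inl C a).2 = 0 := rfl

/-- the new generator -/
def e (C : NDga k A) : NEx k C := ⟨0, 1⟩

@[simp] theorem e_fst : (e C).1 = 0 := rfl
@[simp] theorem e_snd : (e C).2 = 1 := rfl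

theorem eq_inl_add (a : NEx k C) : a = inl C a.1 + inl C a.2 * e C := by
  ext <;> simp

end NEx

namespace NDga

variable {k : Type*} [Field k] {A : Type*} [Ring A] [Algebra k A] (C : NDga k A)

/-- shifted degrees -/
def degS (l n : ℕ) : Submodule k A := if l ≤ n then C.deg (n - l) else ⊥

theorem degS_add (l n : ℕ) : C.degS l (n + l) = C.deg n := by
  unfold degS
  rw [if_pos (by omega), Nat.add_sub_cancel]

theorem mem_degS {l n : ℕ} {b : A} (h : b ∈ C.degS l n) : b = 0 ∨ ∃ j, n = j + l ∧ b ∈ C.deg j := by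
  unfold degS at h
  split_ifs at h with h1
  · exact Or.inr ⟨n - l, by omega, h⟩
  · exact Or.inl h

theorem degS_of {l n j : ℕ} {b : A} (h : n = j + l) (hb : b ∈ C.deg j) : b ∈ C.degS l n := by
  subst h
  rwa [C.degS_add]

/-- **The dga `A ⟨e⟩`**, `|e| = l` odd, `d e = x`, `x` central. -/
def ex {l : ℕ} (hl : Odd l) {x : A} (hx : x ∈ C.deg (l + 1)) (hdx : C.d x = 0)
    (hc : ∀ b, x * b = b * x) : NDga k (NEx k C) where
  deg n := { carrier := {a | a.1 ∈ C.deg n ∧ a.2 ∈ C.degS l n}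
             add_mem' := fun ha hb => ⟨Submodule.add_mem _ ha.1 hb.1, Submodule.add_mem _ ha.2 hb.2⟩
             zero_mem' := ⟨Submodule.zero_mem _, Submodule.zero_mem _⟩
             smul_mem' := fun c _ h => ⟨Submodule.smul_mem _ c h.1, Submodule.smul_mem _ c h.2⟩ }
  sg := AlgHom.ofLinearMap
    { toFun := fun a => ⟨C.sg a.1, -C.sg a.2⟩
      map_add' := fun a b => by ext <;> simp; abel
      map_smul' := fun c a => by ext <;> simp } (by ext <;> simp) (fun a b => by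
        ext
        · simp
        · simp only [LinearMap.coe_mk, AddHom.coe_mk, NEx.snd_mul, NEx.fst_mul, map_add, map_mul,
            mul_neg, neg_mul, neg_add_rev]
          abel)
  d := { toFun := fun a => ⟨C.d a.1 + C.sg a.2 * x, C.d a.2⟩
         map_add' := fun a b => by
          ext
          · simp [add_mul]; abel
          · simp
         map_smul' := fun c a => by ext <;> simp }
  one_mem := ⟨C.one_mem, Submodule.zero_mem _⟩
  mul_mem := by
    rintro p q a b ⟨ha1, ha2⟩ ⟨hb1, hb2⟩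
    refine ⟨C.mul_mem ha1 hb1, Submodule.add_mem _ ?_ ?_⟩
    · rcases C.mem_degS hb2 with h | ⟨j, rfl, h⟩
      · rw [h, mul_zero]; exact Submodule.zero_mem _
      · exact C.degS_of (add_assoc p j l).symm (C.mul_mem ha1 h)
    · rw [C.sg_deg hb1, mul_smul_comm]
      refine Submodule.smul_mem _ _ ?_
      rcases C.mem_degS ha2 with h | ⟨j, rfl, h⟩
      · rw [h, zero_mul]; exact Submodule.zero_mem _
      · exact C.degS_of (by ring) (C.mul_mem h hb1)
  sg_deg := by
    rintro p a ⟨ha1, ha2⟩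
    ext
    · exact C.sg_deg ha1
    · show -C.sg a.2 = (-1 : k) ^ p • a.2
      rcases C.mem_degS ha2 with h | ⟨j, rfl, h⟩
      · rw [h, map_zero, neg_zero, smul_zero]
      · rw [C.sg_deg h, pow_add, hl.neg_one_pow, mul_neg_one, neg_smul]
  sg_sg a := by
    ext
    · exact C.sg_sg _
    · show -C.sg (-C.sg a.2) = a.2
      rw [map_neg, neg_neg, C.sg_sg]
  sg_d a := by
    have hsx : C.sg x = x := C.sg_of_even hx (by obtain ⟨m, rfl⟩ := hl; exact ⟨m + 1, by ring⟩)
    ext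
    · show C.sg (C.d a.1 + C.sg a.2 * x) = -(C.d (C.sg a.1) + C.sg (-C.sg a.2) * x)
      rw [map_add, map_mul, C.sg_sg, hsx, C.sg_d, map_neg, C.sg_sg, neg_mul]
      abel
    · show -C.sg (C.d a.2) = -C.d (-C.sg a.2)
      rw [C.sg_d, map_neg]
  d_mem := by
    rintro p a ⟨ha1, ha2⟩
    refine ⟨Submodule.add_mem _ (C.d_mem ha1) ?_, ?_⟩
    · rcases C.mem_degS ha2 with h | ⟨j, rfl, h⟩
      · rw [h, map_zero, zero_mul]; exact Submodule.zero_mem _
      · rw [C.sg_deg h, smul_mul_assoc]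
        refine Submodule.smul_mem _ _ ?_
        have := C.mul_mem h hx
        rwa [← add_assoc] at this
    · rcases C.mem_degS ha2 with h | ⟨j, rfl, h⟩
      · show C.d a.2 ∈ _
        rw [h, map_zero]; exact Submodule.zero_mem _
      · exact C.degS_of (by ring) (C.d_mem h)
  d_d a := by
    ext
    · show C.d (C.d a.1 + C.sg a.2 * x) + C.sg (C.d a.2) * x = 0
      rw [map_add, C.d_d, C.leib, hdx, mul_zero, C.sg_d]
      simp
    · exact C.d_d _
  leib a b := by
    have hsx : C.sg x = x := C.sg_of_even hx (by obtain ⟨m, rfl⟩ := hl; exact ⟨m + 1, by ring⟩)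
    ext
    · show C.d (a.1 * b.1) + C.sg (a.1 * b.2 + a.2 * C.sg b.1) * x =
        (C.d a.1 + C.sg a.2 * x) * b.1 + C.sg a.1 * (C.d b.1 + C.sg b.2 * x)
      rw [C.leib, map_add, map_mul, map_mul, C.sg_sg, add_mul, add_mul, mul_add,
        mul_assoc (C.sg a.2) x, hc, mul_assoc (C.sg a.1), mul_assoc (C.sg a.2) b.1]
      abel
    · show C.d (a.1 * b.2 + a.2 * C.sg b.1) =
        ((C.d a.1 + C.sg a.2 * x) * b.2 + C.d a.2 * C.sg b.1) +
          (C.sg a.1 * C.d b.2 + -C.sg a.2 * C.sg (C.d b.1 + C.sg b.2 * x))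
      rw [map_add, C.leib, C.leib, map_add, map_mul, C.sg_sg, hsx, C.sg_d, add_mul, mul_add,
        mul_assoc (C.sg a.2) x, hc]
      simp only [neg_mul, mul_neg, neg_neg]
      abel

section

variable {l : ℕ} (hl : Odd l) {x : A} (hx : x ∈ C.deg (l + 1)) (hdx : C.d x = 0)
  (hc : ∀ b, x * b = b * x)

theorem mem_ex_deg {n : ℕ} {a : NEx k C} :
    a ∈ (C.ex hl hx hdx hc).deg n ↔ a.1 ∈ C.deg n ∧ a.2 ∈ C.degS l n := Iff.rfl

@[simp] theorem ex_d_fst (a : NEx k C) :
    ((C.ex hl hx hdx hc).d a).1 = C.d a.1 + C.sg a.2 * x := rfl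

@[simp] theorem ex_d_snd (a : NEx k C) : ((C.ex hl hx hdx hc).d a).2 = C.d a.2 := rfl

@[simp] theorem ex_sg_fst (a : NEx k C) : ((C.ex hl hx hdx hc).sg a).1 = C.sg a.1 := rfl

@[simp] theorem ex_sg_snd (a : NEx k C) : ((C.ex hl hx hdx hc).sg a).2 = -C.sg a.2 := rfl

/-- the inclusion of `A` as a morphism -/
def inlHom : NDga.Hom C (C.ex hl hx hdx hc) where
  f := NEx.inl C
  deg h := ⟨h, Submodule.zero_mem _⟩
  sg a := by ext <;> simp
  d a := by ext <;> simp

theorem e_mem : NEx.e C ∈ (C.ex hl hx hdx hc).deg l :=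
  ⟨Submodule.zero_mem _, C.degS_of (zero_add l).symm C.one_mem⟩

theorem d_e : (C.ex hl hx hdx hc).d (NEx.e C) = NEx.inl C x := by
  ext <;> simp [C.d_one]

theorem e_sq : NEx.e C * NEx.e C = 0 := by ext <;> simp

/-- `e` is graded central -/
theorem e_comm (b : NEx k C) : NEx.e C * b = (C.ex hl hx hdx hc).sg b * NEx.e C := by
  ext <;> simp

end

end NDga

namespace NDga.Hom

variable {k : Type*} [Field k] {A A' : Type*} [Ring A] [Algebra k A] [Ring A'] [Algebra k A']
  {C : NDga k A} {C' : NDga k A'}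

/-- **Universal property**: a morphism `φ` and a graded central odd element `c`, `c c = 0`,
`d c = φ x`. -/
def exLift (φ : NDga.Hom C C') {l : ℕ} (hl : Odd l) {x : A}
    (hx : x ∈ C.deg (l + 1)) (hdx : C.d x = 0) (hxc : ∀ b, x * b = b * x) {c : A'}
    (hc : c ∈ C'.deg l) (hdc : C'.d c = φ.f x) (hcc : c * c = 0)
    (hcb : ∀ b, c * b = C'.sg b * c) : NDga.Hom (C.ex hl hx hdx hxc) C' where
  f := AlgHom.ofLinearMap
    { toFun := fun a => φ.f a.1 + φ.f a.2 * c
      map_add' := fun a b => by simp [add_mul]; abel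
      map_smul' := fun r a => by simp } (by simp) (fun a b => by
        simp only [LinearMap.coe_mk, AddHom.coe_mk, NEx.fst_mul, NEx.snd_mul, map_mul, map_add,
          add_mul, mul_add]
        rw [mul_assoc (φ.f a.2) c (φ.f b.1), hcb (φ.f b.1), mul_assoc (φ.f a.2) c,
          ← mul_assoc c (φ.f b.2), hcb (φ.f b.2), mul_assoc (C'.sg (φ.f b.2)), hcc, mul_zero,
          mul_zero, φ.sg, mul_assoc (φ.f a.1), mul_assoc (φ.f a.2)]
        abel)
  deg := by
    rintro p a ⟨h1, h3⟩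
    refine Submodule.add_mem _ (φ.deg h1) ?_
    rcases C.mem_degS h3 with h | ⟨j, rfl, h⟩
    · show φ.f a.2 * c ∈ _
      rw [h, map_zero, zero_mul]; exact Submodule.zero_mem _
    · exact C'.mul_mem (φ.deg h) hc
  sg a := by
    show φ.f (C.sg a.1) + φ.f (-C.sg a.2) * c = C'.sg (φ.f a.1 + φ.f a.2 * c)
    rw [map_add, map_mul, C'.sg_of_odd hc hl, φ.sg, map_neg, φ.sg, neg_mul, mul_neg]
  d a := by
    show φ.f (C.d a.1 + C.sg a.2 * x) + φ.f (C.d a.2) * c = C'.d (φ.f a.1 + φ.f a.2 * c)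
    rw [map_add, map_mul, φ.d, φ.sg, φ.d, map_add, C'.leib, hdc]
    abel

@[simp] theorem exLift_apply (φ : NDga.Hom C C') {l : ℕ} (hl : Odd l) {x : A}
    (hx : x ∈ C.deg (l + 1)) (hdx : C.d x = 0) (hxc : ∀ b, x * b = b * x) {c : A'}
    (hc : c ∈ C'.deg l) (hdc : C'.d c = φ.f x) (hcc : c * c = 0)
    (hcb : ∀ b, c * b = C'.sg b * c) (a : NEx k C) :
    (φ.exLift hl hx hdx hxc hc hdc hcc hcb).f a = φ.f a.1 + φ.f a.2 * c := rfl

/-- **Functoriality** of `A ⟨e⟩`. -/
def exMap (φ : NDga.Hom C C') {l : ℕ} (hl : Odd l) {x : A}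
    (hx : x ∈ C.deg (l + 1)) (hdx : C.d x = 0) (hxc : ∀ b, x * b = b * x) {x' : A'}
    (hx' : x' ∈ C'.deg (l + 1)) (hdx' : C'.d x' = 0) (hxc' : ∀ b, x' * b = b * x')
    (h : φ.f x = x') : NDga.Hom (C.ex hl hx hdx hxc) (C'.ex hl hx' hdx' hxc') where
  f := AlgHom.ofLinearMap
    { toFun := fun a => ⟨φ.f a.1, φ.f a.2⟩
      map_add' := fun a b => by ext <;> simp
      map_smul' := fun r a => by ext <;> simp } (by ext <;> simp) (fun a b => by
        ext
        · simp
        · simp [φ.sg])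
  deg := by
    rintro p a ⟨h1, h3⟩
    refine ⟨φ.deg h1, ?_⟩
    rcases C.mem_degS h3 with h | ⟨j, rfl, h⟩
    · show φ.f a.2 ∈ _
      rw [h, map_zero]; exact Submodule.zero_mem _
    · exact C'.degS_of rfl (φ.deg h)
  sg a := by
    ext
    · exact φ.sg _
    · show φ.f (-C.sg a.2) = -C'.sg (φ.f a.2)
      rw [map_neg, φ.sg]
  d a := by
    ext
    · show φ.f (C.d a.1 + C.sg a.2 * x) = C'.d (φ.f a.1) + C'.sg (φ.f a.2) * x'
      rw [map_add, map_mul, φ.d, φ.sg, h]
    · exact φ.d _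

@[simp] theorem exMap_fst (φ : NDga.Hom C C') {l : ℕ} (hl : Odd l) {x : A}
    (hx : x ∈ C.deg (l + 1)) (hdx : C.d x = 0) (hxc : ∀ b, x * b = b * x) {x' : A'}
    (hx' : x' ∈ C'.deg (l + 1)) (hdx' : C'.d x' = 0) (hxc' : ∀ b, x' * b = b * x')
    (h : φ.f x = x') (a : NEx k C) :
    ((φ.exMap hl hx hdx hxc hx' hdx' hxc' h).f a).1 = φ.f a.1 := rfl

@[simp] theorem exMap_snd (φ : NDga.Hom C C') {l : ℕ} (hl : Odd l) {x : A}
    (hx : x ∈ C.deg (l + 1)) (hdx : C.d x = 0) (hxc : ∀ b, x * b = b * x) {x' : A'}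
    (hx' : x' ∈ C'.deg (l + 1)) (hdx' : C'.d x' = 0) (hxc' : ∀ b, x' * b = b * x')
    (h : φ.f x = x') (a : NEx k C) :
    ((φ.exMap hl hx hdx hxc hx' hdx' hxc' h).f a).2 = φ.f a.2 := rfl

end NDga.Hom

/-- A morphism from a graded commutative dga into the graded centre of a dga. -/
structure CHom {k : Type*} [Field k] {A A' : Type*} [Ring A] [Algebra k A] [Ring A']
    [Algebra k A'] (C : Cdga k A) (D : NDga k A') extends NDga.Hom C.toN D where
  central : ∀ {p : ℕ} {a : A}, a ∈ C.deg p → ∀ b, f a * b = (D.sg^[p] b) * f a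

namespace CHom

variable {k : Type*} [Field k] {A A' : Type*} [Ring A] [Algebra k A] [Ring A'] [Algebra k A']
  {C : Cdga k A} {D : NDga k A'} (φ : CHom C D)

theorem d' (a : A) : φ.f (C.d a) = D.d (φ.f a) := φ.d a

theorem sg' (a : A) : φ.f (C.sg a) = D.sg (φ.f a) := φ.sg a

theorem deg' {p : ℕ} {a : A} (h : a ∈ C.deg p) : φ.f a ∈ D.deg p := φ.deg h

theorem central_even {p : ℕ} {a : A} (ha : a ∈ C.deg p) (h : Even p) (b : A') :
    φ.f a * b = b * φ.f a := by rw [φ.central ha, D.sg_iter_even h]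

theorem central_odd {p : ℕ} {a : A} (ha : a ∈ C.deg p) (h : Odd p) (b : A') :
    φ.f a * b = D.sg b * φ.f a := by rw [φ.central ha, D.sg_iter_odd h]

theorem central_succ {l : ℕ} (hl : Odd l) {x : A} (hx : x ∈ C.deg (l + 1)) (b : A') :
    φ.f x * b = b * φ.f x := φ.central_even hx (by simpa [parity_simps] using hl) b

theorem d_closed {x : A} (hdx : C.d x = 0) : D.d (φ.f x) = 0 := by rw [← φ.d', hdx, map_zero]

/-- **the extension of a central morphism** `C ⟨e⟩ → D ⟨e⟩` -/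
def ex {l : ℕ} (hl : Odd l) {x : A} (hx : x ∈ C.deg (l + 1)) (hdx : C.d x = 0) :
    CHom (C.ex hl hx hdx) (D.ex hl (φ.deg' hx) (φ.d_closed hdx) (φ.central_succ hl hx)) where
  f := AlgHom.ofLinearMap
    { toFun := fun a => ⟨φ.f a.1, φ.f a.2⟩
      map_add' := fun a b => by ext <;> simp
      map_smul' := fun r a => by ext <;> simp } (by ext <;> simp) (fun a b => by
        ext
        · simp
        · simp [φ.sg'])
  deg := by
    rintro p a ⟨h1, h3⟩
    refine ⟨φ.deg' h1, ?_⟩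
    rcases C.mem_degS h3 with h | ⟨j, rfl, h⟩
    · show φ.f a.2 ∈ _
      rw [h, map_zero]; exact Submodule.zero_mem _
    · exact D.degS_of rfl (φ.deg' h)
  sg a := by
    ext
    · exact φ.sg' _
    · show φ.f (-C.sg a.2) = -D.sg (φ.f a.2)
      rw [map_neg, φ.sg']
  d a := by
    ext
    · show φ.f (C.d a.1 + C.sg a.2 * x) = D.d (φ.f a.1) + D.sg (φ.f a.2) * φ.f x
      rw [map_add, map_mul, φ.d', φ.sg']
    · exact φ.d' _
  central := by
    rintro p a ⟨ha1, ha2⟩ b
    have key : ∀ m : ℕ, ∀ b : NEx k D,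
        (fun a : NEx k D => (⟨D.sg a.1, -D.sg a.2⟩ : NEx k D))^[m] b =
        ⟨D.sg^[m] b.1, (-1 : k) ^ m • D.sg^[m] b.2⟩ := by
      intro m
      induction m with
      | zero => intro b; simp
      | succ m ih =>
        intro b
        rw [Function.iterate_succ_apply', ih]
        ext
        · show D.sg (D.sg^[m] b.1) = _
          rw [Function.iterate_succ_apply']
        · show -D.sg ((-1 : k) ^ m • D.sg^[m] b.2) = (-1 : k) ^ (m + 1) • D.sg^[m + 1] b.2
          rw [map_smul, Function.iterate_succ_apply', pow_succ, mul_neg_one, neg_smul]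
    show (⟨φ.f a.1, φ.f a.2⟩ : NEx k D) * b =
      ((fun a : NEx k D => (⟨D.sg a.1, -D.sg a.2⟩ : NEx k D))^[p] b) * ⟨φ.f a.1, φ.f a.2⟩
    rw [key]
    ext
    · exact φ.central ha1 b.1
    · show φ.f a.1 * b.2 + φ.f a.2 * D.sg b.1 =
        D.sg^[p] b.1 * φ.f a.2 + ((-1 : k) ^ p • D.sg^[p] b.2) * D.sg (φ.f a.1)
      rw [φ.central ha1 b.2, D.sg_deg (φ.deg' ha1), smul_mul_smul_comm, ← mul_pow, neg_one_mul,
        neg_neg, one_pow, one_smul, add_comm]
      congr 1
      rcases C.mem_degS ha2 with h | ⟨j, rfl, h⟩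
      · rw [h, map_zero, zero_mul, mul_zero]
      · rw [φ.central h, ← Function.iterate_succ_apply]
        rcases Nat.even_or_odd j with hj | hj
        · rw [D.sg_iter_odd (by simpa [parity_simps] using hj), D.sg_iter_odd (hj.add_odd hl)]
        · rw [D.sg_iter_even (by simpa [parity_simps] using hj), D.sg_iter_even (hj.add_odd hl)]

@[simp] theorem ex_fst {l : ℕ} (hl : Odd l) {x : A} (hx : x ∈ C.deg (l + 1)) (hdx : C.d x = 0)
    (a : Ex k C) : ((φ.ex hl hx hdx).f a).1 = φ.f a.1 := rfl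

@[simp] theorem ex_snd {l : ℕ} (hl : Odd l) {x : A} (hx : x ∈ C.deg (l + 1)) (hdx : C.d x = 0)
    (a : Ex k C) : ((φ.ex hl hx hdx).f a).2 = φ.f a.2 := rfl

/-- images of odd elements have square zero -/
theorem sq_odd (h2 : (2 : k) ≠ 0) {p : ℕ} {a : A} (ha : a ∈ C.deg p) (h : Odd p) :
    φ.f a * φ.f a = 0 := by rw [← map_mul, C.sq_odd h2 ha h, map_zero]

/-- a graded commutative dga over itself -/
def id (C : Cdga k A) : CHom C C.toN where
  f := AlgHom.id k A
  deg h := h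
  sg _ := rfl
  d _ := rfl
  central h b := C.comm h b

/-- precomposition with a morphism of the bases -/
def compBase {B : Type*} [Ring B] [Algebra k B] {C₀ : Cdga k B} (φ : CHom C D)
    (g : Cdga.Hom C₀ C) : CHom C₀ D where
  toHom := φ.toHom.comp g.toN
  central h b := φ.central (g.deg h) b

@[simp] theorem compBase_f {B : Type*} [Ring B] [Algebra k B] {C₀ : Cdga k B} (φ : CHom C D)
    (g : Cdga.Hom C₀ C) (b : B) : (φ.compBase g).f b = φ.f (g.f b) := rfl

/-- the universal property of `D ⟨e⟩` with `e ↦ φ' c`, `c` in the base of the target -/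
def exLift {B B' : Type*} [Ring B] [Algebra k B] [Ring B'] [Algebra k B'] {C' : Cdga k B}
    {D' : NDga k B'} (φ' : CHom C' D') (g : NDga.Hom D D') (h2 : (2 : k) ≠ 0) {l : ℕ}
    (hl : Odd l) {x : A} (hx : x ∈ C.deg (l + 1)) (hdx : C.d x = 0) {c : B} (hc : c ∈ C'.deg l)
    (h : φ'.f (C'.d c) = g.f (φ.f x)) :
    NDga.Hom (D.ex hl (φ.deg' hx) (φ.d_closed hdx) (φ.central_succ hl hx)) D' :=
  g.exLift hl _ _ _ (φ'.deg' hc) (by rw [← φ'.d', h]) (φ'.sq_odd h2 hc hl)
    (φ'.central_odd hc hl)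

@[simp] theorem exLift_apply {B B' : Type*} [Ring B] [Algebra k B] [Ring B'] [Algebra k B']
    {C' : Cdga k B} {D' : NDga k B'} (φ' : CHom C' D') (g : NDga.Hom D D') (h2 : (2 : k) ≠ 0)
    {l : ℕ} (hl : Odd l) {x : A} (hx : x ∈ C.deg (l + 1)) (hdx : C.d x = 0) {c : B}
    (hc : c ∈ C'.deg l) (h : φ'.f (C'.d c) = g.f (φ.f x)) (a : NEx k D) :
    (φ.exLift φ' g h2 hl hx hdx hc h).f a = g.f a.1 + g.f a.2 * φ'.f c := rfl

/-- functoriality of `D ⟨e⟩` over a map of the bases -/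
def exMap {B B' : Type*} [Ring B] [Algebra k B] [Ring B'] [Algebra k B'] {C' : Cdga k B}
    {D' : NDga k B'} (φ' : CHom C' D') (g : NDga.Hom D D') {l : ℕ} (hl : Odd l) {x : A}
    (hx : x ∈ C.deg (l + 1)) (hdx : C.d x = 0) {x' : B} (hx' : x' ∈ C'.deg (l + 1))
    (hdx' : C'.d x' = 0) (h : g.f (φ.f x) = φ'.f x') :
    NDga.Hom (D.ex hl (φ.deg' hx) (φ.d_closed hdx) (φ.central_succ hl hx))
      (D'.ex hl (φ'.deg' hx') (φ'.d_closed hdx') (φ'.central_succ hl hx')) :=
  g.exMap hl _ _ _ _ _ _ h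

@[simp] theorem exMap_fst {B B' : Type*} [Ring B] [Algebra k B] [Ring B'] [Algebra k B']
    {C' : Cdga k B} {D' : NDga k B'} (φ' : CHom C' D') (g : NDga.Hom D D') {l : ℕ} (hl : Odd l)
    {x : A} (hx : x ∈ C.deg (l + 1)) (hdx : C.d x = 0) {x' : B} (hx' : x' ∈ C'.deg (l + 1))
    (hdx' : C'.d x' = 0) (h : g.f (φ.f x) = φ'.f x') (a : NEx k D) :
    ((φ.exMap φ' g hl hx hdx hx' hdx' h).f a).1 = g.f a.1 := rfl

@[simp] theorem exMap_snd {B B' : Type*} [Ring B] [Algebra k B] [Ring B'] [Algebra k B']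
    {C' : Cdga k B} {D' : NDga k B'} (φ' : CHom C' D') (g : NDga.Hom D D') {l : ℕ} (hl : Odd l)
    {x : A} (hx : x ∈ C.deg (l + 1)) (hdx : C.d x = 0) {x' : B} (hx' : x' ∈ C'.deg (l + 1))
    (hdx' : C'.d x' = 0) (h : g.f (φ.f x) = φ'.f x') (a : NEx k D) :
    ((φ.exMap φ' g hl hx hdx hx' hdx' h).f a).2 = g.f a.2 := rfl

end CHom

end Vale.Agent.P216.V609
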