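import Mathlib.Algebra.Algebra.Basic
import Mathlib.Algebra.Algebra.Prod
import Mathlib.LinearAlgebra.Quotient.Basic
import Mathlib.Tactic

/-!
# P216-V: graded commutative differential graded algebras (frame)

`Cdga k A`: a structure of graded commutative dga on the `k`-algebra `A`; nothing is assumed about
the sum of the homogeneous parts. `sg` is the sign automorphism `a ↦ (-1)^|a| a`.

`Cdga.ext C x` for an even closed element `x`: the dga `A ⟨e⟩ = A × A` (the pair `(a, b)` is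
`a + b e`), `e` odd, `d e = x`.
-/

namespace Vale.Agent.P216.V609

/-- A graded commutative differential graded algebra structure. -/
structure Cdga (k : Type*) [Field k] (A : Type*) [Ring A] [Algebra k A] where
  deg : ℕ → Submodule k A
  sg : A →ₐ[k] A
  d : A →ₗ[k] A
  one_mem : (1 : A) ∈ deg 0
  mul_mem : ∀ {p q : ℕ} {a b : A}, a ∈ deg p → b ∈ deg q → a * b ∈ deg (p + q)
  sg_deg : ∀ {p : ℕ} {a : A}, a ∈ deg p → sg a = (-1 : k) ^ p • a
  sg_sg : ∀ a, sg (sg a) = a
  sg_d : ∀ a, sg (d a) = -d (sg a)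
  /-- graded commutativity; `b` need not be homogeneous -/
  comm : ∀ {p : ℕ} {a : A}, a ∈ deg p → ∀ b, a * b = (sg^[p] b) * a
  d_mem : ∀ {p : ℕ} {a : A}, a ∈ deg p → d a ∈ deg (p + 1)
  d_d : ∀ a, d (d a) = 0
  leib : ∀ a b, d (a * b) = d a * b + sg a * d b

namespace Cdga

variable {k : Type*} [Field k] {A : Type*} [Ring A] [Algebra k A] (C : Cdga k A)

theorem sg_even {p : ℕ} (b : A) : C.sg^[2 * p] b = b := by
  induction p with
  | zero => rfl
  | succ p ih =>
    rw [show 2 * (p + 1) = 2 * p + 1 + 1 by ring, Function.iterate_succ_apply',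
      Function.iterate_succ_apply', ih, C.sg_sg]

theorem sg_iter_even {p : ℕ} (h : Even p) (b : A) : C.sg^[p] b = b := by
  obtain ⟨l, rfl⟩ := h
  rw [← two_mul]
  exact C.sg_even b

theorem sg_iter_odd {p : ℕ} (h : Odd p) (b : A) : C.sg^[p] b = C.sg b := by
  obtain ⟨l, rfl⟩ := h
  exact (Function.iterate_succ_apply' C.sg (2 * l) b).trans (by rw [C.sg_even])

theorem comm_even {p : ℕ} {a : A} (ha : a ∈ C.deg p) (h : Even p) (b : A) : a * b = b * a := by
  rw [C.comm ha, C.sg_iter_even h]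

theorem comm_odd {p : ℕ} {a : A} (ha : a ∈ C.deg p) (h : Odd p) (b : A) :
    a * b = C.sg b * a := by
  rw [C.comm ha, C.sg_iter_odd h]

theorem sg_of_even {p : ℕ} {a : A} (ha : a ∈ C.deg p) (h : Even p) : C.sg a = a := by
  rw [C.sg_deg ha, h.neg_one_pow, one_smul]

theorem sg_of_odd {p : ℕ} {a : A} (ha : a ∈ C.deg p) (h : Odd p) : C.sg a = -a := by
  rw [C.sg_deg ha, h.neg_one_pow, neg_one_smul]

/-- the homogeneous form of graded commutativity -/
theorem comm_hom {p q : ℕ} {a b : A} (ha : a ∈ C.deg p) (hb : b ∈ C.deg q) :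
    a * b = (-1 : k) ^ (p * q) • (b * a) := by
  rw [C.comm ha]
  rcases Nat.even_or_odd p with hp | hp
  · rw [C.sg_iter_even hp, (hp.mul_right q).neg_one_pow, one_smul]
  · rw [C.sg_iter_odd hp, C.sg_deg hb, smul_mul_assoc]
    congr 1
    rcases Nat.even_or_odd q with hq | hq
    · rw [hq.neg_one_pow, (hq.mul_left p).neg_one_pow]
    · rw [hq.neg_one_pow, (hp.mul hq).neg_one_pow]

/-- squares of odd elements vanish -/
theorem sq_odd (h2 : (2 : k) ≠ 0) {p : ℕ} {a : A} (ha : a ∈ C.deg p) (h : Odd p) : a * a = 0 := by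
  have h1 := C.comm_odd ha h a
  rw [C.sg_of_odd ha h, neg_mul] at h1
  have h3 : (2 : k) • (a * a) = 0 := by
    rw [two_smul]
    nth_rewrite 1 [h1]
    exact neg_add_cancel _
  exact (smul_eq_zero.1 h3).resolve_left h2

theorem leib_even {p : ℕ} {a : A} (ha : a ∈ C.deg p) (h : Even p) (b : A) :
    C.d (a * b) = C.d a * b + a * C.d b := by rw [C.leib, C.sg_of_even ha h]

theorem leib_odd {p : ℕ} {a : A} (ha : a ∈ C.deg p) (h : Odd p) (b : A) :
    C.d (a * b) = C.d a * b - a * C.d b := by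
  rw [C.leib, C.sg_of_odd ha h, neg_mul, sub_eq_add_neg]

theorem d_one : C.d 1 = 0 := by
  have h := C.leib 1 1
  rw [mul_one, map_one C.sg, one_mul, mul_one] at h
  exact left_eq_add.1 h

theorem pow_mem {p : ℕ} {a : A} (ha : a ∈ C.deg p) (n : ℕ) : a ^ n ∈ C.deg (n * p) := by
  induction n with
  | zero => simpa using C.one_mem
  | succ n ih =>
    rw [pow_succ, Nat.succ_mul]
    exact C.mul_mem ih ha

/-- powers of a closed element are closed -/
theorem d_pow {a : A} (hd : C.d a = 0) (n : ℕ) :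
    C.d (a ^ n) = 0 := by
  induction n with
  | zero => rw [pow_zero, C.d_one]
  | succ n ih => rw [pow_succ', C.leib, ih, hd, zero_mul, mul_zero, add_zero]

theorem d_mul_closed {a b : A} (ha : C.d a = 0) (hb : C.d b = 0) : C.d (a * b) = 0 := by
  rw [C.leib, ha, hb, zero_mul, mul_zero, add_zero]

/-- the closed elements of degree `n` -/
def Z (n : ℕ) : Submodule k A := C.deg n ⊓ LinearMap.ker C.d

/-- the exact elements of degree `n` -/
def B (n : ℕ) : Submodule k A :=
  match n with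
  | 0 => ⊥
  | n + 1 => (C.deg n).map C.d

theorem mem_Z {n : ℕ} {a : A} : a ∈ C.Z n ↔ a ∈ C.deg n ∧ C.d a = 0 := Iff.rfl

theorem mem_B_succ {n : ℕ} {a : A} : a ∈ C.B (n + 1) ↔ ∃ b ∈ C.deg n, C.d b = a := Iff.rfl

theorem B_le_Z (n : ℕ) : C.B n ≤ C.Z n := by
  cases n with
  | zero => exact bot_le
  | succ n =>
    rintro _ ⟨b, hb, rfl⟩
    exact ⟨C.d_mem hb, C.d_d b⟩

end Cdga

/-- Morphisms of cdgas. -/
structure Cdga.Hom {k : Type*} [Field k] {A A' : Type*} [Ring A] [Algebra k A] [Ring A']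
    [Algebra k A'] (C : Cdga k A) (C' : Cdga k A') where
  f : A →ₐ[k] A'
  deg : ∀ {p : ℕ} {a : A}, a ∈ C.deg p → f a ∈ C'.deg p
  sg : ∀ a, f (C.sg a) = C'.sg (f a)
  d : ∀ a, f (C.d a) = C'.d (f a)

namespace Cdga.Hom

variable {k : Type*} [Field k] {A A' A'' : Type*} [Ring A] [Algebra k A] [Ring A'] [Algebra k A']
  [Ring A''] [Algebra k A''] {C : Cdga k A} {C' : Cdga k A'} {C'' : Cdga k A''}

/-- composition -/
def comp (g : Cdga.Hom C' C'') (f : Cdga.Hom C C') : Cdga.Hom C C'' where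
  f := g.f.comp f.f
  deg h := g.deg (f.deg h)
  sg a := by
    show g.f (f.f (C.sg a)) = C''.sg (g.f (f.f a))
    rw [f.sg, g.sg]
  d a := by
    show g.f (f.f (C.d a)) = C''.d (g.f (f.f a))
    rw [f.d, g.d]

/-- identity -/
def id (C : Cdga k A) : Cdga.Hom C C where
  f := AlgHom.id k A
  deg h := h
  sg _ := rfl
  d _ := rfl

theorem map_Z (φ : Cdga.Hom C C') {n : ℕ} {a : A} (h : a ∈ C.Z n) : φ.f a ∈ C'.Z n :=
  ⟨φ.deg h.1, by
    have h2 : C.d a = 0 := h.2
    show C'.d (φ.f a) = 0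
    rw [← φ.d, h2, map_zero]⟩

theorem map_B (φ : Cdga.Hom C C') {n : ℕ} {a : A} (h : a ∈ C.B n) : φ.f a ∈ C'.B n := by
  cases n with
  | zero =>
    have h0 : a = 0 := h
    rw [h0, map_zero]
    exact Submodule.zero_mem _
  | succ n =>
    obtain ⟨b, hb, rfl⟩ := h
    exact ⟨φ.f b, φ.deg hb, (φ.d b).symm⟩

end Cdga.Hom

/-! ### Adjoining an odd generator `e` with `d e = x` -/

/-- The carrier of `A ⟨e⟩`: the pair `(a, b)` is `a + b e`. -/
@[ext] structure Ex (k : Type*) [Field k] {A : Type*} [Ring A] [Algebra k A] (C : Cdga k A) where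
  fst : A
  snd : A

namespace Ex

variable {k : Type*} [Field k] {A : Type*} [Ring A] [Algebra k A] {C : Cdga k A}

instance : Zero (Ex k C) := ⟨⟨0, 0⟩⟩
instance : One (Ex k C) := ⟨⟨1, 0⟩⟩
instance : Add (Ex k C) := ⟨fun a b => ⟨a.1 + b.1, a.2 + b.2⟩⟩
instance : Neg (Ex k C) := ⟨fun a => ⟨-a.1, -a.2⟩⟩
instance : Sub (Ex k C) := ⟨fun a b => ⟨a.1 - b.1, a.2 - b.2⟩⟩
instance : Mul (Ex k C) := ⟨fun a b => ⟨a.1 * b.1, a.1 * b.2 + a.2 * C.sg b.1⟩⟩
instance : SMul k (Ex k C) := ⟨fun c a => ⟨c • a.1, c • a.2⟩⟩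
instance : SMul ℕ (Ex k C) := ⟨fun c a => ⟨c • a.1, c • a.2⟩⟩
instance : SMul ℤ (Ex k C) := ⟨fun c a => ⟨c • a.1, c • a.2⟩⟩

@[simp] theorem fst_zero : (0 : Ex k C).1 = 0 := rfl
@[simp] theorem snd_zero : (0 : Ex k C).2 = 0 := rfl
@[simp] theorem fst_one : (1 : Ex k C).1 = 1 := rfl
@[simp] theorem snd_one : (1 : Ex k C).2 = 0 := rfl
@[simp] theorem fst_add (a b : Ex k C) : (a + b).1 = a.1 + b.1 := rfl
@[simp] theorem snd_add (a b : Ex k C) : (a + b).2 = a.2 + b.2 := rfl
@[simp] theorem fst_neg (a : Ex k C) : (-a).1 = -a.1 := rfl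
@[simp] theorem snd_neg (a : Ex k C) : (-a).2 = -a.2 := rfl
@[simp] theorem fst_sub (a b : Ex k C) : (a - b).1 = a.1 - b.1 := rfl
@[simp] theorem snd_sub (a b : Ex k C) : (a - b).2 = a.2 - b.2 := rfl
@[simp] theorem fst_mul (a b : Ex k C) : (a * b).1 = a.1 * b.1 := rfl
@[simp] theorem snd_mul (a b : Ex k C) : (a * b).2 = a.1 * b.2 + a.2 * C.sg b.1 := rfl
@[simp] theorem fst_smul (c : k) (a : Ex k C) : (c • a).1 = c • a.1 := rfl
@[simp] theorem snd_smul (c : k) (a : Ex k C) : (c • a).2 = c • a.2 := rfl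

/-- the underlying pair -/
def toProd (a : Ex k C) : A × A := (a.1, a.2)

theorem toProd_injective : Function.Injective (toProd : Ex k C → A × A) := fun a b h => by
  cases a; cases b
  simpa [toProd] using h

instance : AddCommGroup (Ex k C) :=
  toProd_injective.addCommGroup _ rfl (fun _ _ => rfl) (fun _ => rfl) (fun _ _ => rfl)
    (fun _ _ => rfl) (fun _ _ => rfl)

instance : Module k (Ex k C) :=
  toProd_injective.module k ⟨⟨toProd, rfl⟩, fun _ _ => rfl⟩ (fun _ _ => rfl)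

instance : Ring (Ex k C) where
  __ := (inferInstance : AddCommGroup (Ex k C))
  left_distrib a b c := by
    ext
    · simp [mul_add]
    · simp [mul_add]; abel
  right_distrib a b c := by
    ext
    · simp [add_mul]
    · simp [add_mul]; abel
  zero_mul a := by ext <;> simp
  mul_zero a := by ext <;> simp
  mul_assoc a b c := by
    ext
    · simp [mul_assoc]
    · simp only [snd_mul, fst_mul, mul_add, add_mul, map_mul, mul_assoc]
      abel
  one_mul a := by ext <;> simp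
  mul_one a := by ext <;> simp

instance : Algebra k (Ex k C) := Algebra.ofModule
  (fun r x y => by ext <;> simp [smul_add])
  (fun r x y => by ext <;> simp [smul_add])

/-- the inclusion of `A` -/
def inl (C : Cdga k A) : A →ₐ[k] Ex k C := AlgHom.ofLinearMap
  { toFun := fun a => ⟨a, 0⟩
    map_add' := fun a b => by ext <;> simp
    map_smul' := fun c a => by ext <;> simp } rfl (fun a b => by ext <;> simp)

@[simp] theorem inl_fst (a : A) : (inl C a).1 = a := rfl
@[simp] theorem inl_snd (a : A) : (inl C a).2 = 0 := rfl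

/-- the new generator -/
def e (C : Cdga k A) : Ex k C := ⟨0, 1⟩

@[simp] theorem e_fst : (e C).1 = 0 := rfl
@[simp] theorem e_snd : (e C).2 = 1 := rfl

theorem eq_inl_add (a : Ex k C) : a = inl C a.1 + inl C a.2 * e C := by
  ext <;> simp

end Ex

namespace Cdga

variable {k : Type*} [Field k] {A : Type*} [Ring A] [Algebra k A] (C : Cdga k A)

/-- shifted degrees -/
def degS (l n : ℕ) : Submodule k A := if l ≤ n then C.deg (n - l) else ⊥

theorem degS_add (l n : ℕ) : C.degS l (n + l) = C.deg n := by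
  unfold degS
  rw [if_pos (by omega), Nat.add_sub_cancel]

theorem mem_degS {l n : ℕ} {b : A} (h : b ∈ C.degS l n) : b = 0 ∨ ∃ j, n = j + l ∧ b ∈ C.deg j := by
  unfold degS at h
  split_ifs at h with h1
  · exact Or.inr ⟨n - l, by omega, h⟩
  · exact Or.inl h

theorem degS_of {l n j : ℕ} {b : A} (h : n = j + l) (hb : b ∈ C.deg j) : b ∈ C.degS l n := by
  subst h
  rwa [C.degS_add]

/-- **The dga `A ⟨e⟩`**, `|e| = l` odd, `d e = x`. -/
def ex {l : ℕ} (hl : Odd l) {x : A} (hx : x ∈ C.deg (l + 1)) (hdx : C.d x = 0) :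
    Cdga k (Ex k C) where
  deg n := { carrier := {a | a.1 ∈ C.deg n ∧ a.2 ∈ C.degS l n}
             add_mem' := fun ha hb => ⟨Submodule.add_mem _ ha.1 hb.1, Submodule.add_mem _ ha.2 hb.2⟩
             zero_mem' := ⟨Submodule.zero_mem _, Submodule.zero_mem _⟩
             smul_mem' := fun c _ h => ⟨Submodule.smul_mem _ c h.1, Submodule.smul_mem _ c h.2⟩ }
  sg := AlgHom.ofLinearMap
    { toFun := fun a => ⟨C.sg a.1, -C.sg a.2⟩
      map_add' := fun a b => by ext <;> simp; abel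
      map_smul' := fun c a => by ext <;> simp } (by ext <;> simp) (fun a b => by
        ext
        · simp
        · simp only [LinearMap.coe_mk, AddHom.coe_mk, Ex.snd_mul, Ex.fst_mul, map_add, map_mul,
            mul_neg, neg_mul, neg_add_rev]
          abel)
  d := { toFun := fun a => ⟨C.d a.1 + C.sg a.2 * x, C.d a.2⟩
         map_add' := fun a b => by
          ext
          · simp [add_mul]; abel
          · simp
         map_smul' := fun c a => by ext <;> simp }
  one_mem := ⟨C.one_mem, Submodule.zero_mem _⟩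
  mul_mem := by
    rintro p q a b ⟨ha1, ha2⟩ ⟨hb1, hb2⟩
    refine ⟨C.mul_mem ha1 hb1, Submodule.add_mem _ ?_ ?_⟩
    · rcases C.mem_degS hb2 with h | ⟨j, rfl, h⟩
      · rw [h, mul_zero]; exact Submodule.zero_mem _
      · exact C.degS_of (add_assoc p j l).symm (C.mul_mem ha1 h)
    · rw [C.sg_deg hb1, mul_smul_comm]
      refine Submodule.smul_mem _ _ ?_
      rcases C.mem_degS ha2 with h | ⟨j, rfl, h⟩
      · rw [h, zero_mul]; exact Submodule.zero_mem _
      · exact C.degS_of (by ring) (C.mul_mem h hb1)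
  sg_deg := by
    rintro p a ⟨ha1, ha2⟩
    ext
    · exact C.sg_deg ha1
    · show -C.sg a.2 = (-1 : k) ^ p • a.2
      rcases C.mem_degS ha2 with h | ⟨j, rfl, h⟩
      · rw [h, map_zero, neg_zero, smul_zero]
      · rw [C.sg_deg h, pow_add, hl.neg_one_pow, mul_neg_one, neg_smul]
  sg_sg a := by
    ext
    · exact C.sg_sg _
    · show -C.sg (-C.sg a.2) = a.2
      rw [map_neg, neg_neg, C.sg_sg]
  sg_d a := by
    have hsx : C.sg x = x := C.sg_of_even hx (by obtain ⟨m, rfl⟩ := hl; exact ⟨m + 1, by ring⟩)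
    ext
    · show C.sg (C.d a.1 + C.sg a.2 * x) = -(C.d (C.sg a.1) + C.sg (-C.sg a.2) * x)
      rw [map_add, map_mul, C.sg_sg, hsx, C.sg_d, map_neg, C.sg_sg, neg_mul]
      abel
    · show -C.sg (C.d a.2) = -C.d (-C.sg a.2)
      rw [C.sg_d, map_neg]
  comm := by
    rintro p a ⟨ha1, ha2⟩ b
    have key : ∀ m : ℕ, ∀ b : Ex k C, (fun a : Ex k C => (⟨C.sg a.1, -C.sg a.2⟩ : Ex k C))^[m] b =
        ⟨C.sg^[m] b.1, (-1 : k) ^ m • C.sg^[m] b.2⟩ := by
      intro m
      induction m with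
      | zero => intro b; simp
      | succ m ih =>
        intro b
        rw [Function.iterate_succ_apply', ih]
        ext
        · show C.sg (C.sg^[m] b.1) = _
          rw [Function.iterate_succ_apply']
        · show -C.sg ((-1 : k) ^ m • C.sg^[m] b.2) = (-1 : k) ^ (m + 1) • C.sg^[m + 1] b.2
          rw [map_smul, Function.iterate_succ_apply', pow_succ, mul_neg_one, neg_smul]
    show a * b = ((fun a : Ex k C => (⟨C.sg a.1, -C.sg a.2⟩ : Ex k C))^[p] b) * a
    rw [key]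
    ext
    · exact C.comm ha1 b.1
    · show a.1 * b.2 + a.2 * C.sg b.1 =
        C.sg^[p] b.1 * a.2 + ((-1 : k) ^ p • C.sg^[p] b.2) * C.sg a.1
      rw [C.comm ha1 b.2, C.sg_deg ha1, smul_mul_smul_comm, ← mul_pow, neg_one_mul, neg_neg,
        one_pow, one_smul, add_comm]
      congr 1
      rcases C.mem_degS ha2 with h | ⟨j, rfl, h⟩
      · rw [h, zero_mul, mul_zero]
      · rw [C.comm h, ← Function.iterate_succ_apply]
        rcases Nat.even_or_odd j with hj | hj
        · rw [C.sg_iter_odd (by simpa [parity_simps] using hj), C.sg_iter_odd (hj.add_odd hl)]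
        · rw [C.sg_iter_even (by simpa [parity_simps] using hj), C.sg_iter_even (hj.add_odd hl)]
  d_mem := by
    rintro p a ⟨ha1, ha2⟩
    refine ⟨Submodule.add_mem _ (C.d_mem ha1) ?_, ?_⟩
    · rcases C.mem_degS ha2 with h | ⟨j, rfl, h⟩
      · rw [h, map_zero, zero_mul]; exact Submodule.zero_mem _
      · rw [C.sg_deg h, smul_mul_assoc]
        refine Submodule.smul_mem _ _ ?_
        have := C.mul_mem h hx
        rwa [← add_assoc] at this
    · rcases C.mem_degS ha2 with h | ⟨j, rfl, h⟩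
      · show C.d a.2 ∈ _
        rw [h, map_zero]; exact Submodule.zero_mem _
      · exact C.degS_of (by ring) (C.d_mem h)
  d_d a := by
    ext
    · show C.d (C.d a.1 + C.sg a.2 * x) + C.sg (C.d a.2) * x = 0
      rw [map_add, C.d_d, C.leib, hdx, mul_zero, C.sg_d]
      simp
    · exact C.d_d _
  leib a b := by
    have hsx : C.sg x = x := C.sg_of_even hx (by obtain ⟨m, rfl⟩ := hl; exact ⟨m + 1, by ring⟩)
    have hc : ∀ b, x * b = b * x :=
      C.comm_even hx (by obtain ⟨m, rfl⟩ := hl; exact ⟨m + 1, by ring⟩)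
    ext
    · show C.d (a.1 * b.1) + C.sg (a.1 * b.2 + a.2 * C.sg b.1) * x =
        (C.d a.1 + C.sg a.2 * x) * b.1 + C.sg a.1 * (C.d b.1 + C.sg b.2 * x)
      rw [C.leib, map_add, map_mul, map_mul, C.sg_sg, add_mul, add_mul, mul_add,
        mul_assoc (C.sg a.2) x, hc, mul_assoc (C.sg a.1), mul_assoc (C.sg a.2) b.1]
      abel
    · show C.d (a.1 * b.2 + a.2 * C.sg b.1) =
        ((C.d a.1 + C.sg a.2 * x) * b.2 + C.d a.2 * C.sg b.1) +
          (C.sg a.1 * C.d b.2 + -C.sg a.2 * C.sg (C.d b.1 + C.sg b.2 * x))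
      rw [map_add, C.leib, C.leib, map_add, map_mul, C.sg_sg, hsx, C.sg_d, add_mul, mul_add,
        mul_assoc (C.sg a.2) x, hc]
      simp only [neg_mul, mul_neg, neg_neg]
      abel

end Cdga

end Vale.Agent.P216.V609

namespace Vale.Agent.P216.V609

namespace Cdga

variable {k : Type*} [Field k] {A : Type*} [Ring A] [Algebra k A] (C : Cdga k A)

section

variable {l : ℕ} (hl : Odd l) {x : A} (hx : x ∈ C.deg (l + 1)) (hdx : C.d x = 0)

theorem mem_ex_deg {n : ℕ} {a : Ex k C} :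
    a ∈ (C.ex hl hx hdx).deg n ↔ a.1 ∈ C.deg n ∧ a.2 ∈ C.degS l n := Iff.rfl

@[simp] theorem ex_d_fst (a : Ex k C) :
    ((C.ex hl hx hdx).d a).1 = C.d a.1 + C.sg a.2 * x := rfl

@[simp] theorem ex_d_snd (a : Ex k C) : ((C.ex hl hx hdx).d a).2 = C.d a.2 := rfl

@[simp] theorem ex_sg_fst (a : Ex k C) : ((C.ex hl hx hdx).sg a).1 = C.sg a.1 := rfl

@[simp] theorem ex_sg_snd (a : Ex k C) : ((C.ex hl hx hdx).sg a).2 = -C.sg a.2 := rfl

/-- the inclusion of `A` as a morphism -/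
def inlHom : Cdga.Hom C (C.ex hl hx hdx) where
  f := Ex.inl C
  deg h := ⟨h, Submodule.zero_mem _⟩
  sg a := by ext <;> simp
  d a := by ext <;> simp

theorem e_mem : Ex.e C ∈ (C.ex hl hx hdx).deg l :=
  ⟨Submodule.zero_mem _, C.degS_of (zero_add l).symm C.one_mem⟩

theorem d_e : (C.ex hl hx hdx).d (Ex.e C) = Ex.inl C x := by
  ext <;> simp [C.d_one]

end

end Cdga

namespace Cdga.Hom

variable {k : Type*} [Field k] {A A' : Type*} [Ring A] [Algebra k A] [Ring A'] [Algebra k A']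
  {C : Cdga k A} {C' : Cdga k A'}

/-- **Universal property**: a morphism `φ` and an odd element `c` with `d c = φ x`. -/
def exLift (φ : Cdga.Hom C C') (h2 : (2 : k) ≠ 0) {l : ℕ} (hl : Odd l) {x : A}
    (hx : x ∈ C.deg (l + 1)) (hdx : C.d x = 0) {c : A'} (hc : c ∈ C'.deg l)
    (hdc : C'.d c = φ.f x) : Cdga.Hom (C.ex hl hx hdx) C' where
  f := AlgHom.ofLinearMap
    { toFun := fun a => φ.f a.1 + φ.f a.2 * c
      map_add' := fun a b => by simp [add_mul]; abel
      map_smul' := fun r a => by simp } (by simp) (fun a b => by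
        have h1 := C'.comm_odd hc hl
        have h3 := C'.sq_odd h2 hc hl
        simp only [LinearMap.coe_mk, AddHom.coe_mk, Ex.fst_mul, Ex.snd_mul, map_mul, map_add,
          add_mul, mul_add]
        rw [mul_assoc (φ.f a.2) c (φ.f b.1), h1 (φ.f b.1), mul_assoc (φ.f a.2) c,
          ← mul_assoc c (φ.f b.2), h1 (φ.f b.2), mul_assoc (C'.sg (φ.f b.2)), h3, mul_zero,
          mul_zero, φ.sg, mul_assoc (φ.f a.1), mul_assoc (φ.f a.2)]
        abel)
  deg := by
    rintro p a ⟨h1, h3⟩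
    refine Submodule.add_mem _ (φ.deg h1) ?_
    rcases C.mem_degS h3 with h | ⟨j, rfl, h⟩
    · show φ.f a.2 * c ∈ _
      rw [h, map_zero, zero_mul]; exact Submodule.zero_mem _
    · exact C'.mul_mem (φ.deg h) hc
  sg a := by
    show φ.f (C.sg a.1) + φ.f (-C.sg a.2) * c = C'.sg (φ.f a.1 + φ.f a.2 * c)
    rw [map_add, map_mul, C'.sg_of_odd hc hl, φ.sg, map_neg, φ.sg, neg_mul, mul_neg]
  d a := by
    show φ.f (C.d a.1 + C.sg a.2 * x) + φ.f (C.d a.2) * c = C'.d (φ.f a.1 + φ.f a.2 * c)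
    rw [map_add, map_mul, φ.d, φ.sg, φ.d, map_add, C'.leib, hdc]
    abel

@[simp] theorem exLift_apply (φ : Cdga.Hom C C') (h2 : (2 : k) ≠ 0) {l : ℕ} (hl : Odd l) {x : A}
    (hx : x ∈ C.deg (l + 1)) (hdx : C.d x = 0) {c : A'} (hc : c ∈ C'.deg l)
    (hdc : C'.d c = φ.f x) (a : Ex k C) :
    (φ.exLift h2 hl hx hdx hc hdc).f a = φ.f a.1 + φ.f a.2 * c := rfl

/-- **Functoriality** of `A ⟨e⟩`. -/
def exMap (φ : Cdga.Hom C C') {l : ℕ} (hl : Odd l) {x : A}
    (hx : x ∈ C.deg (l + 1)) (hdx : C.d x = 0) {x' : A'} (hx' : x' ∈ C'.deg (l + 1))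
    (hdx' : C'.d x' = 0) (h : φ.f x = x') :
    Cdga.Hom (C.ex hl hx hdx) (C'.ex hl hx' hdx') where
  f := AlgHom.ofLinearMap
    { toFun := fun a => ⟨φ.f a.1, φ.f a.2⟩
      map_add' := fun a b => by ext <;> simp
      map_smul' := fun r a => by ext <;> simp } (by ext <;> simp) (fun a b => by
        ext
        · simp
        · simp [φ.sg])
  deg := by
    rintro p a ⟨h1, h3⟩
    refine ⟨φ.deg h1, ?_⟩
    rcases C.mem_degS h3 with h | ⟨j, rfl, h⟩
    · show φ.f a.2 ∈ _
      rw [h, map_zero]; exact Submodule.zero_mem _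
    · exact C'.degS_of rfl (φ.deg h)
  sg a := by
    ext
    · exact φ.sg _
    · show φ.f (-C.sg a.2) = -C'.sg (φ.f a.2)
      rw [map_neg, φ.sg]
  d a := by
    ext
    · show φ.f (C.d a.1 + C.sg a.2 * x) = C'.d (φ.f a.1) + C'.sg (φ.f a.2) * x'
      rw [map_add, map_mul, φ.d, φ.sg, h]
    · exact φ.d _

@[simp] theorem exMap_fst (φ : Cdga.Hom C C') {l : ℕ} (hl : Odd l) {x : A}
    (hx : x ∈ C.deg (l + 1)) (hdx : C.d x = 0) {x' : A'} (hx' : x' ∈ C'.deg (l + 1))
    (hdx' : C'.d x' = 0) (h : φ.f x = x') (a : Ex k C) :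
    ((φ.exMap hl hx hdx hx' hdx' h).f a).1 = φ.f a.1 := rfl

@[simp] theorem exMap_snd (φ : Cdga.Hom C C') {l : ℕ} (hl : Odd l) {x : A}
    (hx : x ∈ C.deg (l + 1)) (hdx : C.d x = 0) {x' : A'} (hx' : x' ∈ C'.deg (l + 1))
    (hdx' : C'.d x' = 0) (h : φ.f x = x') (a : Ex k C) :
    ((φ.exMap hl hx hdx hx' hdx' h).f a).2 = φ.f a.2 := rfl

end Cdga.Hom

end Vale.Agent.P216.V609
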