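import Vale.Agent.P216.V609.LinI
import Vale.Agent.P216.H929V.HSq

/-!
# P216-V, LINBD-I: linear growth in 929's packaging
-/

set_option linter.all false

open Set Filter Topology BoundedContinuousFunction Bundle Manifold
open scoped ContDiff

namespace Vale.Agent.P216.V609

open V1 H285V H929V V775 Vale.Agent.P231.Fm Vale.Agent.P216.MV337

/-- **Linear growth of the system of the free loops** (929's `hSys`). -/
theorem linBd_hSys {E : Type} [NormedAddCommGroup E] [NormedSpace ℝ E] [FiniteDimensional ℝ E]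
    {M : Type} [MetricSpace M] [CompactSpace M] [ChartedSpace E M] [IsManifold 𝓘(ℝ, E) ∞ M]
    [RiemannianBundle (fun x : M => TangentSpace 𝓘(ℝ, E) x)]
    [IsContMDiffRiemannianBundle 𝓘(ℝ, E) ∞ E (fun x : M => TangentSpace 𝓘(ℝ, E) x)]
    [IsRiemannianManifold 𝓘(ℝ, E) M] [PreconnectedSpace M]
    (hfin : ¬ (primeClosedGeodesicImages M).Infinite) {ρ : (ℝ →ᵇ M) → M}
    (hρ : ∀ x x', dist (ρ x) (ρ x') ≤ dist x x') (hA : ∀ s t, t ≤ s → FL M t ⊆ FL M s) :
    (hSys ρ univ (FL M) hA).toNSys.LinBd :=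
  linBd_of_nwData (E := E) hfin two_ne_zero _ (hSys_w ρ hρ (FL M) hA) (hSys_hw ρ hρ (FL M) hA)

end Vale.Agent.P216.V609
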