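import Vale.Agent.P216.V775.NTower
import Vale.Agent.P216.H929V.HW
import Vale.Agent.P216.V609.NLin
import Vale.Agent.P216.MV337.Conj

/-!
# P216-V, LINBD-I: the system of the hybrid dgas of the free loops

`gX N`: the cdga of germs of forms on `N`. `gN ρ A`: the hybrid dga of `ρ : Y → N`, lists in
`A ⊆ Y`, over `gX N`. `gMo hA`: restriction to a smaller set of lists. `flS M`: the system
`t ↦ gN (evaluation at 0) (FL M t)`.
-/

set_option linter.all false

open Set Filter Topology BoundedContinuousFunction Bundle Manifold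
open scoped ContDiff

namespace Vale.Agent.P216.V609

open V1 H285V H929V V775 Vale.Agent.P231.Fm Vale.Agent.P216.MV337

noncomputable section

variable {N Y : Type} [PseudoMetricSpace N] [PseudoMetricSpace Y]

variable (N) in
/-- the cdga of germs of forms on `N` -/
abbrev gX : CD.{1} ℝ := ⟨(vr (Set.univ : Set N)).GA, (vr (Set.univ : Set N)).cdga⟩

/-- the hybrid dga of `ρ : Y → N`, lists in `A ⊆ Y` -/
abbrev gN (ρ : Y → N) (A : Set Y) : ND.{1} (gX N) :=
  ⟨HD (id : N → N) ρ A Set.univ, hD (id : N → N) ρ A Set.univ, evD (id : N → N) ρ A Set.univ⟩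

/-- restriction to a smaller set of lists -/
def gMo (ρ : Y → N) {A B : Set Y} (h : A ⊆ B) : NMo (gN ρ B) (gN ρ A) where
  g := pullD Sq.id fun ε _ => map_mono h Subset.rfl le_rfl
  ev a := by
    refine (pullD_evD Sq.id (fun ε _ => map_mono h Subset.rfl le_rfl) (φ := id)
      (fun ε _ => map_monoM Subset.rfl le_rfl) (Fam.Map.id _) (fun _ => rfl) a).trans ?_
    exact congrArg (evD (id : N → N) ρ A Set.univ).f (Fam.pull_id _ a)

theorem gMo_comp (ρ : Y → N) {A B C : Set Y} (h : A ⊆ B) (h' : B ⊆ C) (h'' : A ⊆ C)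
    (a : (gN ρ C).A) : (gMo ρ h).g.f ((gMo ρ h').g.f a) = (gMo ρ h'').g.f a :=
  (pullD_comp Sq.id (fun ε _ => map_mono h' Subset.rfl le_rfl) Sq.id
    (fun ε _ => map_mono h Subset.rfl le_rfl) Sq.id (fun ε _ => map_mono h'' Subset.rfl le_rfl)
    a).symm

/-- the system of the hybrid dgas of an increasing family of sets of lists -/
def gS (ρ : Y → N) (A : ℝ → Set Y) (hA : ∀ s t, t ≤ s → A t ⊆ A s) : NSysO.{1} (gX N) where
  Y t := gN ρ (A t)
  ρ s t h := gMo ρ (hA s t h)
  ρ_ρ s t r h h' a := gMo_comp ρ (hA t r h') (hA s t h) (hA s r (h'.trans h)) a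

variable {M : Type} [MetricSpace M]

/-- evaluation at time `0` -/
def e0 (w : ℝ →ᵇ M) : M := w 0

theorem e0_lip (w w' : ℝ →ᵇ M) : dist (e0 w) (e0 w') ≤ dist w w' :=
  BoundedContinuousFunction.dist_coe_le_dist 0

variable (M) in
/-- **the system of the free loops** -/
def flS : NSysO.{1} (gX M) := gS e0 (FL M) fun _ _ h => FL_mono h

theorem flS_Y (t : ℝ) : (flS M).Y t = gN e0 (FL M t) := rfl

/-- restriction of the functions of lists -/
theorem gMo_WD (ρ : Y → N) {A B : Set Y} (h : A ⊆ B) (n : ℕ) (f : List Y → ℝ) :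
    (gMo ρ h).g.f (WD (id : N → N) ρ B Set.univ n f) = WD (id : N → N) ρ A Set.univ n f := by
  refine (pullD_WD (ψ := id) Sq.id (fun ε _ => map_mono h Subset.rfl le_rfl)
    (fun p => (List.map_id p.2).symm) n f).trans ?_
  congr 1
  funext l
  rw [List.map_id]

end

/-- **Linear growth of the system of the free loops.** -/
theorem linBd_flS {E : Type} [NormedAddCommGroup E] [NormedSpace ℝ E] [FiniteDimensional ℝ E]
    {M : Type} [MetricSpace M] [CompactSpace M] [ChartedSpace E M] [IsManifold 𝓘(ℝ, E) ∞ M]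
    [RiemannianBundle (fun x : M => TangentSpace 𝓘(ℝ, E) x)]
    [IsContMDiffRiemannianBundle 𝓘(ℝ, E) ∞ E (fun x : M => TangentSpace 𝓘(ℝ, E) x)]
    [IsRiemannianManifold 𝓘(ℝ, E) M] [PreconnectedSpace M]
    (hfin : ¬ (primeClosedGeodesicImages M).Infinite) : (flS M).toNSys.LinBd :=
  linBd_of_nwData (E := E) hfin two_ne_zero _ (fun t => wD e0_lip)
    fun s t h n f => gMo_WD e0 (FL_mono h) n f

end Vale.Agent.P216.V609
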