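import Vale.Agent.P216.V609.LinH
import Vale.Agent.P216.V893.VSInst

/-!
# P216-V, LINBD-I: linear growth of the free loops of `V893.vs`
-/

set_option linter.all false

open Set Filter Topology BoundedContinuousFunction Bundle Manifold
open scoped ContDiff

namespace Vale.Agent.P216.V609

open V1 H285V H929V V775 Vale.Agent.P231.Fm Vale.Agent.P216.MV337

/-- **Linear growth** (the hypothesis `hS` of `VS.vend` for `V893.vs M b`). -/
theorem linBd_vs {E : Type} [NormedAddCommGroup E] [NormedSpace ℝ E] [FiniteDimensional ℝ E]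
    {M : Type} [MetricSpace M] [CompactSpace M] [ChartedSpace E M] [IsManifold 𝓘(ℝ, E) ∞ M]
    [RiemannianBundle (fun x : M => TangentSpace 𝓘(ℝ, E) x)]
    [IsContMDiffRiemannianBundle 𝓘(ℝ, E) ∞ E (fun x : M => TangentSpace 𝓘(ℝ, E) x)]
    [IsRiemannianManifold 𝓘(ℝ, E) M] [PreconnectedSpace M]
    (hfin : ¬ (primeClosedGeodesicImages M).Infinite) (b : M) :
    (V893.vs M b).FL.toNSys.LinBd :=
  linBd_hSys (E := E) hfin e0_lip fun _ _ h => FL_mono h

end Vale.Agent.P216.V609
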